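import Vale.Agent.P144M.Uni

/-!
The boundary condition from the `H`-function in a multiply connected domain.
-/

namespace Vale.Agent.P144M

open Filter Topology Complex Metric Set
open Vale.Agent.P144.H170 (HD)
open Vale.Agent.P144.H365 (cH)
open Vale.Agent.P144G (Nr HD_comp unif_of ev_ring)

/-- Charts with their inverses and the components of the complement. -/
structure Atl (D : Set ℂ) (ι : Type) extends Chs D ι where
  ψ : ι → ℂ → ℂ
  K : ι → Set ℂ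
  ψd : ∀ j w, r < ‖w‖ → ‖w‖ < 1 → ψ j w ∈ D ∧ φ j (ψ j w) = w ∧ DifferentiableAt ℂ (ψ j) w
  Kc : ∀ j, IsClosed (K j)
  Kp : ∀ j, IsPreconnected (K j)
  Ks : ∀ j, K j ⊆ Dᶜ
  Kn : ∀ j, (K j).Nonempty
  near : ∀ j, ∀ η > (0 : ℝ), ∃ ρ < (1 : ℝ), ∀ z ∈ D, ρ < ‖φ j z‖ → infDist z (K j) < η
  uc : ∀ j, ∀ ε > (0 : ℝ), ∃ δ > (0 : ℝ), ∀ p ∈ K j, ∀ z ∈ D, ∀ z' ∈ D, ‖z - p‖ < δ →
    ‖z' - p‖ < δ → ‖φ j z - φ j z'‖ < ε

/-- `cv` is constant at a small scale outside `D`. -/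
def LocC (D : Set ℂ) (cv : ℂ → ℝ) : Prop :=
  ∃ r > (0 : ℝ), ∀ p ∉ D, ∀ p' ∉ D, ‖p - p'‖ < r → cv p = cv p'

/-- `h` has the boundary values `cv`. -/
def VanM (D : Set ℂ) (h cv : ℂ → ℝ) : Prop :=
  ∀ ε > (0 : ℝ), ∃ η > (0 : ℝ), ∀ z ∈ D, ∀ p ∉ D, ‖z - p‖ < η → |h z - cv p| ≤ ε

/-- `h` is not below its boundary values near any boundary point. -/
def SgnM (D : Set ℂ) (h cv : ℂ → ℝ) : Prop :=
  ∀ p ∈ frontier D, ∀ r > (0 : ℝ), ∃ z ∈ D, ‖z - p‖ < r ∧ cv p ≤ h z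

variable {D : Set ℂ} {ι : Type}

theorem LocC.const {cv : ℂ → ℝ} (h : LocC D cv) {K : Set ℂ} (hK : IsPreconnected K)
    (hs : K ⊆ Dᶜ) {p p' : ℂ} (hp : p ∈ K) (hp' : p' ∈ K) : cv p = cv p' := by
  obtain ⟨r, hr, h⟩ := h
  refine hK.induction₂' (fun x y => cv x = cv y) (fun x hx => ?_) (fun _ _ _ _ _ _ => Eq.trans)
    hp hp'
  filter_upwards [nhdsWithin_le_nhds (ball_mem_nhds x hr), self_mem_nhdsWithin] with y h1 h2
  rw [mem_ball, dist_eq_norm] at h1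
  have := h y (hs h2) x (hs hx) h1
  exact ⟨this.symm, this⟩

theorem Atl.left (c : Atl D ι) {j : ι} {z : ℂ} (hz : z ∈ D) (h : c.r < ‖c.φ j z‖) :
    c.ψ j (c.φ j z) = z :=
  c.inj j (c.ψd j _ h (c.lt j z hz)).1 hz (c.ψd j _ h (c.lt j z hz)).2.1

theorem Atl.der (c : Atl D ι) {j : ι} {w : ℂ} (h1 : c.r < ‖w‖) (h2 : ‖w‖ < 1) :
    deriv (c.φ j) (c.ψ j w) * deriv (c.ψ j) w = 1 := by
  obtain ⟨a1, -, a3⟩ := c.ψd j w h1 h2
  refine ((((c.φd j).differentiableAt (c.op.mem_nhds a1)).hasDerivAt.comp w a3.hasDerivAt).unique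
    ((hasDerivAt_id w).congr_of_eventuallyEq ?_))
  filter_upwards [(isOpen_lt continuous_const continuous_norm).mem_nhds h1,
    (isOpen_lt continuous_norm continuous_const).mem_nhds h2] with y b1 b2
  exact (c.ψd j y b1 b2).2.1

/-- Every point of the circle is approached from a point of the component. -/
theorem Atl.exists_bd (c : Atl D ι) (j : ι) {ξ : ℂ} (hξ : ‖ξ‖ = 1) :
    ∃ p ∈ c.K j, p ∈ frontier D ∧ ∀ δ > (0 : ℝ), ∃ w : ℂ, c.r < ‖w‖ ∧ ‖w‖ < 1 ∧ ‖w - ξ‖ < δ ∧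
      ‖c.ψ j w - p‖ < δ := by
  have hne : (𝓝[ball (0 : ℂ) 1] ξ).NeBot := by
    rw [← mem_closure_iff_nhdsWithin_neBot, closure_ball _ one_ne_zero, mem_closedBall_zero_iff]
    exact hξ.le
  obtain ⟨p, hp, hcl⟩ := c.bdd.isCompact_closure.exists_mapClusterPt (u := c.ψ j)
    (f := 𝓝[ball (0 : ℂ) 1] ξ) (by
      rw [le_principal_iff, mem_map]
      filter_upwards [ev_ring c.r1 hξ] with w hw using subset_closure (c.ψd j w hw.1 hw.2).1)
  have hfr : ∀ s ∈ 𝓝 p, ∃ᶠ w in 𝓝[ball (0 : ℂ) 1] ξ, c.ψ j w ∈ s :=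
    mapClusterPt_iff_frequently.1 hcl
  have hK : p ∈ c.K j := by
    rw [← (c.Kc j).closure_eq, Metric.mem_closure_iff]
    intro ε hε
    obtain ⟨ρ, h1, h2⟩ := c.near j _ (half_pos hε)
    obtain ⟨w, a1, a2, a3⟩ := ((hfr _ (ball_mem_nhds p (half_pos hε))).and_eventually
      ((ev_ring c.r1 hξ).and (ev_ring h1 hξ))).exists
    obtain ⟨b1, b2, -⟩ := c.ψd j w a2.1 a2.2
    obtain ⟨y, hy, b3⟩ := (infDist_lt_iff (c.Kn j)).1 (h2 _ b1 (by rw [b2]; exact a3.1))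
    rw [mem_ball, dist_comm] at a1
    exact ⟨y, hy, by linarith [dist_triangle p (c.ψ j w) y]⟩
  refine ⟨p, hK, ?_, fun δ hδ => ?_⟩
  · rw [c.op.frontier_eq]
    exact ⟨hp, c.Ks j hK⟩
  · obtain ⟨w, h1, h2, h3⟩ := ((hfr _ (ball_mem_nhds p hδ)).and_eventually
      ((ev_ring c.r1 hξ).and (nhdsWithin_le_nhds (ball_mem_nhds ξ hδ)))).exists
    rw [mem_ball, dist_eq_norm] at h1
    exact ⟨w, h2.1, h2.2, by rwa [← dist_eq_norm], h1⟩

variable [Fintype ι]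

/-- **The boundary condition from the `H`-function.** -/
theorem Atl.bdc (c : Atl D ι) {K : Set ℂ} {h cv : ℂ → ℝ} {F : ℂ → ℂ} (hK : IsCompact K)
    (hKD : K ⊆ D) (hF : DifferentiableOn ℂ F (D \ K))
    (hd : ∀ z ∈ D \ K, HD h (fun w => cH * F w) z) (hc : LocC D cv) (hv : VanM D h cv)
    (hs : SgnM D h cv) : c.Bd F := by
  intro ε hε
  have key : ∀ j, ∀ᶠ ρ in 𝓝[<] (1 : ℝ), ∀ z ∈ D, ρ < ‖c.φ j z‖ →
      ‖c.X j (fun z => cH * F z) z‖ - (c.X j (fun z => cH * F z) z).re ≤ ε := by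
    intro j
    obtain ⟨p₀, hp₀⟩ := c.Kn j
    have hN : Nr (fun w => h (c.ψ j w) - cv p₀) fun w => cH * F (c.ψ j w) * deriv (c.ψ j) w := by
      constructor
      · obtain ⟨ρ, h1, h2⟩ := c.away hK hKD
        refine ⟨max ρ c.r, max_lt h1 c.r1, fun w a1 a2 => ?_⟩
        have a3 : c.r < ‖w‖ := (le_max_right _ _).trans_lt a1
        obtain ⟨b1, b2, b3⟩ := c.ψd j w a3 a2
        have b4 : c.ψ j w ∈ D \ K := ⟨b1, fun b => by
          have := h2 j _ b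
          rw [b2] at this
          linarith [le_max_left ρ c.r]⟩
        have b5 : DifferentiableAt ℂ (deriv (c.ψ j)) w := by
          refine (DifferentiableOn.analyticAt (s := {y | c.r < ‖y‖ ∧ ‖y‖ < 1})
            (fun y hy => (c.ψd j y hy.1 hy.2).2.2.differentiableWithinAt) ?_).deriv.differentiableAt
          exact inter_mem ((isOpen_lt continuous_const continuous_norm).mem_nhds a3)
            ((isOpen_lt continuous_norm continuous_const).mem_nhds a2)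
        exact ⟨(((hF.differentiableAt ((c.op.sdiff hK.isClosed).mem_nhds b4)).comp w
          b3).const_mul _).mul b5, HasFDerivAt.sub_const _
            (HD_comp (G := fun y => cH * F y) (φ' := deriv (c.ψ j)) (hd _ b4) b3.hasDerivAt)⟩
      · intro e he
        obtain ⟨η, h1, h2⟩ := hv e he
        obtain ⟨ρ, h3, h4⟩ := c.near j η h1
        refine ⟨max ρ c.r, max_lt h3 c.r1, fun w a1 a2 => ?_⟩
        obtain ⟨b1, b2, -⟩ := c.ψd j w ((le_max_right _ _).trans_lt a1) a2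
        obtain ⟨y, hy, b3⟩ := (infDist_lt_iff (c.Kn j)).1
          (h4 _ b1 (by rw [b2]; exact (le_max_left _ _).trans_lt a1))
        rw [hc.const (c.Kp j) (c.Ks j) hp₀ hy]
        exact h2 _ b1 y (c.Ks j hy) (by rwa [← dist_eq_norm])
    have hlim : ∀ ξ : ℂ, ‖ξ‖ = 1 → Tendsto (fun w => ‖-(w * (cH * F (c.ψ j w) * deriv (c.ψ j) w))‖ -
        (-(w * (cH * F (c.ψ j w) * deriv (c.ψ j) w))).re) (𝓝[ball 0 1] ξ) (𝓝 0) := by
      intro ξ hξ
      obtain ⟨t, ht, hl⟩ := hN.lim hξ fun η hη => by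
        have a0 : 0 < min η (1 - c.r) := lt_min hη (sub_pos.2 c.r1)
        obtain ⟨δ, hδ, hu⟩ := c.uc j _ (half_pos a0)
        obtain ⟨p, hp, hpf, hw⟩ := c.exists_bd j hξ
        obtain ⟨z, hz, h1, h2⟩ := hs p hpf δ hδ
        obtain ⟨w, a1, a2, a3, a4⟩ := hw _ (lt_min (half_pos a0) hδ)
        obtain ⟨b1, b2, -⟩ := c.ψd j w a1 a2
        have a5 := hu p hp z hz _ b1 h1 (a4.trans_le (min_le_right _ _))
        rw [b2] at a5
        have a6 : ‖c.φ j z - ξ‖ < min η (1 - c.r) := by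
          linarith [norm_sub_le_norm_sub_add_norm_sub (c.φ j z) w ξ,
            min_le_left (min η (1 - c.r) / 2) δ]
        refine ⟨c.φ j z, c.lt j z hz, a6.trans_le (min_le_left _ _), ?_⟩
        have a7 := norm_sub_norm_le ξ (c.φ j z)
        rw [norm_sub_rev, hξ] at a7
        rw [c.left hz (by linarith [min_le_right η (1 - c.r)]),
          hc.const (c.Kp j) (c.Ks j) hp₀ hp]
        linarith
      have := hl.norm.sub (continuous_re.continuousAt.tendsto.comp hl)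
      rwa [norm_real, Real.norm_of_nonneg ht, ofReal_re, sub_self] at this
    obtain ⟨ρ, h1, h2⟩ := unif_of hlim hε
    filter_upwards [Ioo_mem_nhdsLT (max_lt h1 c.r1)] with ρ' hρ' z hz a
    have a1 : c.r < ‖c.φ j z‖ := ((le_max_right _ _).trans_lt hρ'.1).trans a
    have a2 := h2 _ (((le_max_left _ _).trans_lt hρ'.1).trans a) (c.lt j z hz)
    have a3 := c.der (j := j) a1 (c.lt j z hz)
    rw [c.left hz a1] at a2 a3
    have e : c.X j (fun z => cH * F z) z =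
        -(c.φ j z * (cH * F z * deriv (c.ψ j) (c.φ j z))) := by
      unfold Chs.X
      rw [eq_one_div_of_mul_eq_one_right a3]
      ring
    rwa [e]
  obtain ⟨ρ, h2, h3⟩ := ((eventually_all.2 key).and self_mem_nhdsWithin).exists
  exact ⟨ρ, h3, h2⟩

end Vale.Agent.P144M
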