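import Vale.Agent.P144Q.R.Uc

/-!
Oscillation near the boundary of holomorphic maps into the disc.
-/

namespace Vale.Agent.P144M

open Filter Topology Metric Set Complex
open Vale.Agent.P144Q (Cm)
open Vale.Agent.P144Q.R (schwarz_re OC norm_rmul)
open scoped ComplexConjugate

/-- A holomorphic map into the disc. -/
structure Hol (D : Set ℂ) (φ : ℂ → ℂ) : Prop where
  op : IsOpen D
  diff : DifferentiableOn ℂ φ D
  maps : MapsTo φ D (ball 0 1)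

variable {D : Set ℂ} {φ : ℂ → ℂ}

/-- Oscillation in a disc inside the domain. -/
theorem osc_ball (c : Hol D φ) {z y : ℂ} {d : ℝ} (hd : 0 < d) (hb : ball z d ⊆ D)
    (hy : ‖y - z‖ ≤ d / 2) : ‖φ y - φ z‖ ≤ 2 * (1 - ‖φ z‖) := by
  obtain ⟨u, hu, he⟩ := RCLike.exists_norm_eq_mul_self (φ z)
  have he' : u * φ z = (‖φ z‖ : ℂ) := he.symm
  have hlt : ∀ w ∈ ball z d, ‖φ w‖ < 1 := fun w hw => mem_ball_zero_iff.1 (c.maps (hb hw))
  have h1 := schwarz_re (f := fun w => 1 - u * φ w) (c := z) (y := y) (R := d)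
    (((c.diff.mono hb).const_mul u).const_sub 1) (fun w hw => by
      have a1 := re_le_norm (u * φ w)
      rw [norm_mul, hu, one_mul] at a1
      rw [sub_re, one_re]
      linarith [hlt w hw]) (by rw [mem_ball, dist_eq_norm]; linarith)
  have e1 : ‖1 - u * φ y - (1 - u * φ z)‖ = ‖φ y - φ z‖ := by
    rw [show 1 - u * φ y - (1 - u * φ z) = -u * (φ y - φ z) by ring, norm_mul, norm_neg,
      hu, one_mul]
  have hz := hlt z (mem_ball_self hd)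
  have e2 : ‖1 - u * φ y + conj (1 - u * φ z)‖ ≤ ‖φ y - φ z‖ + 2 * (1 - ‖φ z‖) := by
    have a1 : 1 - u * φ y + conj (1 - u * φ z) =
        (1 - u * φ y - (1 - u * φ z)) + ((2 * (1 - ‖φ z‖) : ℝ) : ℂ) := by
      rw [he', map_sub, map_one, conj_ofReal]; push_cast; ring
    rw [a1]
    refine (norm_add_le _ _).trans ?_
    rw [e1, norm_real, Real.norm_of_nonneg (by linarith)]
  rw [e1] at h1
  have h2 := mul_le_mul hy e2 (norm_nonneg _) (by positivity)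
  nlinarith

theorem deriv_ball (c : Hol D φ) {z : ℂ} {d : ℝ} (hd : 0 < d) (hb : ball z d ⊆ D) :
    ‖deriv φ z‖ ≤ 2 * (1 - ‖φ z‖) / (d / 2) :=
  norm_deriv_le_div_of_mapsTo_ball
    (c.diff.mono ((ball_subset_ball (half_le_self hd.le)).trans hb))
    (fun y hy => by
      rw [mem_ball, dist_eq_norm] at hy
      rw [mem_closedBall, dist_eq_norm]
      exact osc_ball c hd hb hy.le) (half_pos hd)

/-- Comparison with a point above the boundary. -/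
theorem osc_top (c : Hol D φ) {κ r C σ₀ : ℝ} {p₀ μ z : ℂ} (k0 : 0 < κ) (k1 : κ ≤ 1) (hμ : ‖μ‖ = 1)
    (hO : OC D κ r p₀ μ) (hp₀ : p₀ ∉ D) (hC : 0 < C) (hσ : 0 < σ₀) (hσr : 8 * σ₀ ^ 2 ≤ r)
    (hb : ∀ p ∉ D, ‖p - p₀‖ < r / 2 → ∀ y ∈ D, ‖y - p‖ ≤ r / 8 →
      (1 - ‖φ y‖) ^ 2 ≤ C ^ 2 * ‖y - p‖)
    (hz : z ∈ D) (hzp : ‖z - p₀‖ < κ ^ 2 * σ₀ ^ 2 / 4) :
    ‖φ z - φ (p₀ + (σ₀ ^ 2 : ℝ) * μ)‖ ≤ (8 * C / κ + 2 * C) * σ₀ := by
  set T : ℝ := κ * σ₀ ^ 2 / 4 with hT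
  have hs2 : 0 < σ₀ ^ 2 := by positivity
  have hT0 : 0 < T := by positivity
  have hT1 : T ≤ σ₀ ^ 2 / 4 := by rw [hT]; nlinarith
  have hzT : ‖z - p₀‖ < κ * T := by rw [hT]; linarith
  have hkT : κ * T ≤ T := by nlinarith
  have hdn : ∀ t : ℝ, 0 ≤ t → t ≤ T → ‖z - t * μ - p₀‖ ≤ 2 * T := by
    intro t t0 t1
    have := norm_sub_le (z - p₀) (t * μ)
    rw [norm_rmul hμ t0, sub_right_comm] at this
    linarith
  -- the boundary point below `z`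
  obtain ⟨τ, τ0, τ1, hp1, hp2⟩ : ∃ τ : ℝ, 0 ≤ τ ∧ τ ≤ T ∧ z - τ * μ ∈ closure D ∧
      z - τ * μ ∉ D := by
    by_contra hcon
    push Not at hcon
    have a1 : IsPreconnected ((fun t : ℝ => z - t * μ) '' Icc 0 T) :=
      isPreconnected_Icc.image _ (by fun_prop)
    have a2 := a1.subset_of_closure_inter_subset c.op
      ⟨z, ⟨0, ⟨le_rfl, hT0.le⟩, by simp⟩, hz⟩
      (by rintro _ ⟨b1, t, ht, rfl⟩; exact hcon t ht.1 ht.2 b1)
    refine hp₀ (hO _ (a2 ⟨T, ⟨hT0.le, le_rfl⟩, rfl⟩) (by linarith [hdn T hT0.le le_rfl]) T hT0 p₀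
      ?_ (by rw [sub_self, norm_zero]; linarith))
    rwa [sub_add_cancel, norm_sub_rev]
  have τp : 0 < τ := τ0.lt_of_ne fun h => hp2 (by rw [← h]; simpa using hz)
  set p := z - τ * μ with hp
  have hpp : ‖p - p₀‖ ≤ 2 * T := hdn τ τ0 τ1
  have hball : ∀ t : ℝ, 0 < t → t ≤ σ₀ ^ 2 → ball (p + t * μ) (κ * t) ⊆ D := by
    intro t t0 t1 x hx
    rw [mem_ball, dist_eq_norm] at hx
    obtain ⟨y, hy, hyp⟩ := Metric.mem_closure_iff.1 hp1 _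
      (lt_min (sub_pos.2 hx) hT0)
    rw [dist_eq_norm] at hyp
    have a1 := hyp.trans_le (min_le_left _ _)
    have a2 := hyp.trans_le (min_le_right _ _)
    refine hO y hy ?_ t t0 x ?_ ?_
    · linarith [norm_sub_le_norm_sub_add_norm_sub y p p₀, norm_sub_rev y p]
    · have := norm_add_le (x - (p + t * μ)) (p - y)
      rw [show x - (p + t * μ) + (p - y) = x - (y + t * μ) by ring] at this
      linarith
    · have := norm_add₃_le (a := x - (p + t * μ)) (b := (t : ℂ) * μ) (c := p - p₀)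
      rw [show x - (p + t * μ) + t * μ + (p - p₀) = x - p₀ by ring, norm_rmul hμ t0.le] at this
      nlinarith
  have hδ : ∀ σ ∈ Ioc 0 σ₀, σ ^ 2 ≤ σ₀ ^ 2 ∧ 1 - ‖φ (p + (σ ^ 2 : ℝ) * μ)‖ ≤ C * σ := by
    intro σ hs
    have a1 : σ ^ 2 ≤ σ₀ ^ 2 := pow_le_pow_left₀ hs.1.le hs.2 2
    have a0 : 0 < σ ^ 2 := pow_pos hs.1 2
    have a2 := hb p hp2 (by linarith) _ (hball _ a0 a1 (mem_ball_self (mul_pos k0 a0)))
      (by rw [add_sub_cancel_left, norm_rmul hμ a0.le]; linarith)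
    rw [add_sub_cancel_left, norm_rmul hμ a0.le, ← mul_pow] at a2
    exact ⟨a1, (abs_le_of_sq_le_sq' a2 (mul_pos hC hs.1).le).2⟩
  have hder : ∀ σ ∈ Ioc 0 σ₀, HasDerivWithinAt (fun s : ℝ => φ (p + (s ^ 2 : ℝ) * μ))
      (deriv φ (p + (σ ^ 2 : ℝ) * μ) * (2 * σ * μ)) (Ioc 0 σ₀) σ := by
    intro σ hs
    have a0 : 0 < σ ^ 2 := pow_pos hs.1 2
    have a1 := (c.diff.differentiableAt (c.op.mem_nhds (hball _ a0 (hδ σ hs).1
      (mem_ball_self (mul_pos k0 a0))))).hasDerivAt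
    have a2 : HasDerivAt (fun s : ℂ => p + s ^ 2 * μ) (2 * σ * μ) (σ : ℂ) := by
      simpa using ((hasDerivAt_pow 2 (σ : ℂ)).mul_const μ).const_add p
    rw [ofReal_pow] at a1
    have a3 := (HasDerivAt.comp (h := fun s : ℂ => p + s ^ 2 * μ) (σ : ℂ) a1 a2).comp_ofReal
    simpa [Function.comp_def] using a3.hasDerivWithinAt
  have hbd : ∀ σ ∈ Ioc 0 σ₀, ‖deriv φ (p + (σ ^ 2 : ℝ) * μ) * (2 * σ * μ)‖ ≤ 8 * C / κ := by
    intro σ hs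
    have a0 : 0 < σ ^ 2 := pow_pos hs.1 2
    have a1 := deriv_ball c (mul_pos k0 a0) (hball _ a0 (hδ σ hs).1)
    have a2 : ‖2 * (σ : ℂ) * μ‖ = 2 * σ := by
      rw [← norm_rmul hμ (mul_pos two_pos hs.1).le]; push_cast; rfl
    have a3 : 2 * (1 - ‖φ (p + (σ ^ 2 : ℝ) * μ)‖) / (κ * σ ^ 2 / 2) ≤
        2 * (C * σ) / (κ * σ ^ 2 / 2) :=
      div_le_div_of_nonneg_right (by linarith [(hδ σ hs).2]) (by positivity)
    have := hs.1
    rw [norm_mul, a2]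
    refine (mul_le_mul_of_nonneg_right (a1.trans a3) (by positivity)).trans_eq ?_
    field_simp; ring
  have m1 : √τ ∈ Ioc 0 σ₀ := ⟨Real.sqrt_pos.2 τp, Real.sqrt_le_iff.2 ⟨hσ.le, by linarith⟩⟩
  have m2 : σ₀ ∈ Ioc 0 σ₀ := ⟨hσ, le_rfl⟩
  have i1 := (convex_Ioc 0 σ₀).norm_image_sub_le_of_norm_hasDerivWithin_le hder hbd m2 m1
  have e1 : p + ((√τ ^ 2 : ℝ) : ℂ) * μ = z := by rw [Real.sq_sqrt τ0, hp]; ring
  simp only [e1] at i1
  have i2 : ‖√τ - σ₀‖ ≤ σ₀ := by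
    rw [Real.norm_eq_abs, abs_le]; constructor <;> linarith [m1.1, m1.2]
  have i3 := osc_ball c (y := p₀ + (σ₀ ^ 2 : ℝ) * μ) (mul_pos k0 hs2) (hball _ hs2 le_rfl)
    (by rw [add_sub_add_right_eq_sub, norm_sub_rev]; linarith)
  have i4 := norm_sub_le_norm_sub_add_norm_sub (φ z) (φ (p + (σ₀ ^ 2 : ℝ) * μ))
    (φ (p₀ + (σ₀ ^ 2 : ℝ) * μ))
  rw [norm_sub_rev] at i3
  have i5 := mul_le_mul_of_nonneg_left i2 (show 0 ≤ 8 * C / κ by positivity)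
  linarith [(hδ σ₀ m2).2]

/-- The barrier given by a map into the slit plane. -/
theorem bar_abs {V : Set ℂ} (c : Cm V) {m : ℂ → ℂ} (hm : DifferentiableOn ℂ m V)
    (h2 : ∀ y ∈ V, m y ∈ slitPlane) {z : ℂ} (hz : z ∈ V) :
    (1 - ‖c.φ z‖) ^ 2 * ‖m (c.ψ 0)‖ ≤ 4 * ‖m z‖ := by
  set f : ℂ → ℂ := fun w => exp (log (m (c.ψ w)) / 2) with hf
  have h3 : ∀ w ∈ ball (0 : ℂ) 1, ‖f w‖ ^ 2 = ‖m (c.ψ w)‖ := by
    intro w hw
    rw [← norm_pow, hf, ← exp_nat_mul]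
    congr 1
    rw [show ((2 : ℕ) : ℂ) * (log (m (c.ψ w)) / 2) = log (m (c.ψ w)) by push_cast; ring,
      exp_log (slitPlane_ne_zero (h2 _ (c.ψm hw)))]
  have hw := c.φm hz
  have h4 := schwarz_re (f := f) (c := 0) (R := 1) (fun w hw => by
      have a1 := c.ψd.differentiableAt (isOpen_ball.mem_nhds hw)
      have a2 := (hm.differentiableAt (c.op.mem_nhds (c.ψm hw))).comp w a1
      exact ((a2.clog (h2 _ (c.ψm hw))).div_const 2).cexp.differentiableWithinAt)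
    (fun w hw => by
      simp only [hf, exp_re, div_ofNat_im, log_im]
      refine mul_pos (Real.exp_pos _) (Real.cos_pos_of_mem_Ioo ⟨?_, ?_⟩)
      · linarith [neg_pi_lt_arg (m (c.ψ w))]
      · linarith [(arg_le_pi _).lt_of_ne (slitPlane_arg_ne_pi (h2 _ (c.ψm hw)))]) hw
  rw [mul_one, sub_zero] at h4
  have h5 : ‖f (c.φ z) + conj (f 0)‖ ≤ ‖f (c.φ z)‖ + ‖f 0‖ :=
    (norm_add_le _ _).trans_eq (by rw [norm_conj])
  have h6 := norm_sub_norm_le (f 0) (f (c.φ z))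
  rw [norm_sub_rev] at h6
  have hw1 := mem_ball_zero_iff.1 hw
  have h7 : (1 - ‖c.φ z‖) * ‖f 0‖ ≤ 2 * ‖f (c.φ z)‖ := by
    nlinarith [mul_le_mul_of_nonneg_left h5 (norm_nonneg (c.φ z)), norm_nonneg (f (c.φ z))]
  have h8 := pow_le_pow_left₀ (mul_nonneg (by linarith) (norm_nonneg _)) h7 2
  have h0 : (0 : ℂ) ∈ ball (0 : ℂ) 1 := mem_ball_self one_pos
  rw [mul_pow, mul_pow, h3 0 h0, h3 _ hw, c.li z hz] at h8
  linarith

/-- Small oscillation near the points of `K`. -/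
theorem osc_near (c : Hol D φ) {K : Set ℂ} {κ r C : ℝ} (k0 : 0 < κ) (k1 : κ ≤ 1) (hr : 0 < r)
    (hC0 : 0 < C) (hO : ∀ p₀ ∈ K, p₀ ∉ D ∧ ∃ μ : ℂ, ‖μ‖ = 1 ∧ OC D κ r p₀ μ ∧
      ∀ p ∉ D, ‖p - p₀‖ < r / 2 → ∀ y ∈ D, ‖y - p‖ ≤ r / 8 → (1 - ‖φ y‖) ^ 2 ≤ C ^ 2 * ‖y - p‖)
    {ε : ℝ} (hε : 0 < ε) : ∃ ρ > (0 : ℝ), ∀ p₀ ∈ K, ∀ z ∈ D, ∀ z' ∈ D, ‖z - p₀‖ < ρ →
      ‖z' - p₀‖ < ρ → ‖φ z - φ z'‖ < ε := by
  set A : ℝ := 8 * C / κ + 2 * C with hA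
  have hA0 : 0 < A := by positivity
  set σ₀ : ℝ := min (ε / (4 * A)) (√(r / 8)) with hσ
  have hσ0 : 0 < σ₀ := lt_min (by positivity) (Real.sqrt_pos.2 (by positivity))
  have hσ1 : A * σ₀ ≤ ε / 4 := by
    have := min_le_left (ε / (4 * A)) (√(r / 8))
    rw [← hσ, le_div_iff₀ (by positivity)] at this
    linarith
  have hσ2 : 8 * σ₀ ^ 2 ≤ r := by
    have := pow_le_pow_left₀ hσ0.le (min_le_right (ε / (4 * A)) (√(r / 8))) 2
    rw [Real.sq_sqrt (by positivity)] at this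
    linarith
  refine ⟨κ ^ 2 * σ₀ ^ 2 / 4, by positivity, fun p₀ hp₀ z hz z' hz' a1 a2 => ?_⟩
  obtain ⟨hp, μ, hμ, hO, hb⟩ := hO p₀ hp₀
  have i1 := osc_top c k0 k1 hμ hO hp hC0 hσ0 hσ2 hb hz a1
  have i2 := osc_top c k0 k1 hμ hO hp hC0 hσ0 hσ2 hb hz' a2
  rw [norm_sub_rev] at i2
  linarith [norm_sub_le_norm_sub_add_norm_sub (φ z) (φ (p₀ + (σ₀ ^ 2 : ℝ) * μ)) (φ z')]

end Vale.Agent.P144M
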