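import Vale.Agent.P144M.Top
import Vale.Agent.P144M.Osc
import Vale.Agent.P144M.Bdc
import Vale.Agent.P144Q.R.Uc3
import Vale.Agent.P144Q.R.Bdc

/-!
Existence of the charts.
-/

namespace Vale.Agent.P144M

open Filter Topology Metric Set Complex
open Vale.Agent.P144Q (Cm)
open Vale.Agent.P144Q.R (OC norm_rmul conf)

/-- The complement of `K` after the inversion at `a`. -/
def Vk (K : Set ℂ) (a : ℂ) (R : ℝ) : Set ℂ := {v | a + v⁻¹ ∉ K ∨ v = 0 ∧ K ⊆ ball 0 R}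

/-- A component of the complement with an interior point. -/
structure Cp (D K : Set ℂ) (a : ℂ) (δ R : ℝ) : Prop where
  cl : IsClosed K
  pre : IsPreconnected K
  cpre : IsPreconnected Kᶜ
  sub : K ⊆ Dᶜ
  ne : D.Nonempty
  d0 : 0 < δ
  R0 : 0 < R
  fat : ball a δ ⊆ K
  alt : K ⊆ ball 0 R ∨ ∀ z : ℂ, R ≤ ‖z‖ → z ∈ K

variable {D K : Set ℂ} {a : ℂ} {δ R : ℝ}

theorem inv_inv_add (a z : ℂ) : a + ((z - a)⁻¹)⁻¹ = z := by rw [inv_inv, add_sub_cancel]

theorem Cp.mem (h : Cp D K a δ R) : a ∈ K := h.fat (mem_ball_self h.d0)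

theorem Cp.ne_of (h : Cp D K a δ R) {z : ℂ} (hz : z ∉ K) : z - a ≠ 0 :=
  sub_ne_zero.2 fun e => hz (e ▸ h.mem)

theorem mem_Vk {z : ℂ} (hz : z ∉ K) : (z - a)⁻¹ ∈ Vk K a R :=
  Or.inl (by rwa [inv_inv_add])

theorem Cp.not_mem_Vk (h : Cp D K a δ R) {z : ℂ} (hz : z ∈ K) (ha : z ≠ a) :
    (z - a)⁻¹ ∉ Vk K a R := by
  rintro (b | b)
  · exact b (by rwa [inv_inv_add])
  · exact inv_ne_zero (sub_ne_zero.2 ha) b.1

theorem Cp.small (h : Cp D K a δ R) (hb : K ⊆ ball 0 R) :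
    closedBall 0 (R + ‖a‖)⁻¹ ⊆ Vk K a R := by
  intro v hv
  by_cases h0 : v = 0
  · exact Or.inr ⟨h0, hb⟩
  refine Or.inl fun b => ?_
  have R0 := h.R0
  have b1 := mem_ball_zero_iff.1 (hb b)
  have b2 := norm_sub_le (a + v⁻¹) a
  rw [add_sub_cancel_left, norm_inv] at b2
  rw [mem_closedBall_zero_iff, le_inv_comm₀ (norm_pos_iff.2 h0) (by positivity)] at hv
  linarith

theorem Cp.V1 (h : Cp D K a δ R) : {v | a + v⁻¹ ∉ K} = (fun z => (z - a)⁻¹) '' Kᶜ := by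
  ext v
  constructor
  · exact fun hv => ⟨a + v⁻¹, hv, by simp⟩
  · rintro ⟨z, hz, rfl⟩
    simpa using hz

theorem Cp.open_Vk (h : Cp D K a δ R) : IsOpen (Vk K a R) := by
  rw [isOpen_iff_mem_nhds]
  rintro v (hv | ⟨rfl, hv⟩)
  · have h0 : v ≠ 0 := fun e => hv (by simpa [e] using h.mem)
    have hc : ContinuousAt (fun v : ℂ => a + v⁻¹) v := continuousAt_const.add (continuousAt_inv₀ h0)
    filter_upwards [hc.preimage_mem_nhds (h.cl.isOpen_compl.mem_nhds hv)] with y hy using Or.inl hy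
  · have R0 := h.R0
    exact mem_of_superset (closedBall_mem_nhds _ (by positivity)) (h.small hv)

theorem Cp.bdd_Vk (h : Cp D K a δ R) : Bornology.IsBounded (Vk K a R) := by
  refine (isBounded_closedBall (x := (0 : ℂ)) (r := δ⁻¹)).subset ?_
  rintro v (hv | ⟨rfl, -⟩)
  · have h0 : v ≠ 0 := fun e => hv (by simpa [e] using h.mem)
    rw [mem_closedBall_zero_iff, le_inv_comm₀ (norm_pos_iff.2 h0) h.d0]
    by_contra b
    exact hv (h.fat (by rw [mem_ball, dist_eq_norm, add_sub_cancel_left, norm_inv]; exact not_le.1 b))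
  · exact mem_closedBall_self (inv_pos.2 h.d0).le

theorem zero_mem_closure {S : Set ℂ} {ρ : ℝ} (hρ : 0 < ρ) (h : ∀ v : ℂ, v ≠ 0 → ‖v‖ < ρ → v ∈ S) :
    (0 : ℂ) ∈ closure S := by
  refine mem_closure_of_frequently_of_tendsto (b := 𝓝[≠] (0 : ℂ)) (f := id)
    (Eventually.frequently ?_) nhdsWithin_le_nhds
  filter_upwards [self_mem_nhdsWithin, nhdsWithin_le_nhds (ball_mem_nhds 0 hρ)] with v h1 h2
  exact h v h1 (mem_ball_zero_iff.1 h2)

theorem Cp.cm (h : Cp D K a δ R) : Nonempty (Cm (Vk K a R)) := by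
  have R0 := h.R0
  obtain ⟨x, hx⟩ := h.ne
  have c1 : IsPreconnected {v | a + v⁻¹ ∉ K} := h.V1 ▸ h.cpre.image _
    (ContinuousOn.inv₀ (by fun_prop) fun z hz => h.ne_of hz)
  have c2 : IsConnected (Vk K a R) := ⟨⟨_, mem_Vk fun b => h.sub b hx⟩,
    c1.subset_closure (fun v hv => Or.inl hv) (by
      rintro v (hv | ⟨rfl, hv⟩)
      · exact subset_closure hv
      · refine zero_mem_closure (ρ := (R + ‖a‖)⁻¹) (by positivity) fun v h0 h1 => ?_
        exact (h.small hv (mem_closedBall_zero_iff.2 h1.le)).resolve_right fun b => h0 b.1)⟩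
  set W : Set ℂ := (fun z => (z - a)⁻¹) '' (K \ {a}) with hW
  have w1 : IsPreconnected W :=
    (pre_diff_pt h.pre (mem_of_superset (ball_mem_nhds a h.d0) h.fat)).image _
      (ContinuousOn.inv₀ (by fun_prop) fun z hz => sub_ne_zero.2 hz.2)
  have w2 : W ⊆ (Vk K a R)ᶜ := by
    rintro _ ⟨z, hz, rfl⟩
    exact h.not_mem_Vk hz.1 hz.2
  have w0 : ∀ v : ℂ, v ≠ 0 → a + v⁻¹ ∈ K → v ∈ W := fun v h0 hv =>
    ⟨a + v⁻¹, ⟨hv, by simpa using h0⟩, by simp⟩
  have w3 : ¬ Bornology.IsBounded W := by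
    intro hb
    obtain ⟨B, hB0, hB⟩ := hb.subset_ball_lt 0 0
    have d0 := h.d0
    have a1 : (0 : ℝ) < B + 2 / δ := by positivity
    have a2 := hB (w0 ((B + 2 / δ : ℝ) : ℂ) (by exact_mod_cast a1.ne') (h.fat (by
      rw [mem_ball, dist_eq_norm, add_sub_cancel_left, norm_inv, norm_real,
        Real.norm_of_nonneg a1.le, inv_lt_comm₀ a1 d0]
      have : δ⁻¹ < 2 / δ := by rw [inv_eq_one_div]; exact div_lt_div_of_pos_right one_lt_two d0
      linarith)))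
    rw [mem_ball_zero_iff, norm_real, Real.norm_of_nonneg a1.le] at a2
    linarith [div_pos two_pos d0]
  refine P144Q.M.cm h.open_Vk h.bdd_Vk (P153.TOP.RMT.isSimplyConnected_of_noBdd h.open_Vk c2
    (fun e => NormedSpace.unbounded_univ ℝ ℂ (e ▸ h.bdd_Vk)) fun v hv => ?_)
  by_cases h0 : v = 0
  · subst h0
    have a1 := h.alt.resolve_left fun b => hv (Or.inr ⟨rfl, b⟩)
    refine ⟨insert 0 W, w1.subset_closure (subset_insert _ _) (insert_subset ?_ subset_closure),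
      mem_insert _ _, insert_subset hv w2, fun b => w3 (b.subset (subset_insert _ _))⟩
    refine zero_mem_closure (ρ := (R + ‖a‖)⁻¹) (by positivity) fun v h0 h1 => w0 v h0 (a1 _ ?_)
    have b2 := norm_sub_le (a + v⁻¹) a
    rw [add_sub_cancel_left, norm_inv] at b2
    rw [lt_inv_comm₀ (norm_pos_iff.2 h0) (by positivity)] at h1
    linarith
  · exact ⟨W, w1, w0 v h0 (by_contra fun b => hv (Or.inl b)), w2, w3⟩

/-- Near the circle the inverse chart is close to the component. -/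
theorem Cp.near (h : Cp D K a δ R) (c : Cm (Vk K a R)) {η : ℝ} (hη : 0 < η) :
    ∃ ρ < (1 : ℝ), ∀ w : ℂ, ρ < ‖w‖ → ‖w‖ < 1 →
      a + (c.ψ w)⁻¹ ∉ K ∧ infDist (a + (c.ψ w)⁻¹) K < η := by
  have R0 := h.R0
  set A : Set ℂ := {z | η ≤ infDist z K} ∩ closedBall a (R + ‖a‖) with hA
  have a1 : ∀ z ∈ A, z ∉ K := fun z hz b => by
    have : η ≤ infDist z K := hz.1
    rw [infDist_zero_of_mem b] at this
    linarith
  have a2 : IsCompact ((fun z => (z - a)⁻¹) '' A) :=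
    ((isCompact_closedBall _ _).inter_left (isClosed_le continuous_const
      (continuous_infDist_pt _))).image_of_continuousOn
      (ContinuousOn.inv₀ (by fun_prop) fun z hz => h.ne_of (a1 z hz))
  have a3 : (fun z => (z - a)⁻¹) '' A ⊆ Vk K a R := by
    rintro _ ⟨z, hz, rfl⟩
    exact mem_Vk (a1 z hz)
  have key : ∀ w : ℂ, c.ψ w ∉ (fun z => (z - a)⁻¹) '' A → η ≤ infDist (a + (c.ψ w)⁻¹) K →
      R + ‖a‖ < ‖(c.ψ w)⁻¹‖ := fun w b1 b2 => by
    by_contra b3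
    exact b1 ⟨a + (c.ψ w)⁻¹, ⟨b2, by
      rw [mem_closedBall, dist_eq_norm, add_sub_cancel_left]; exact not_lt.1 b3⟩, by simp⟩
  by_cases hb : K ⊆ ball 0 R
  · obtain ⟨ρ, h1, h2⟩ := (conf c).away (a2.union (isCompact_closedBall _ _))
      (union_subset a3 (h.small hb))
    refine ⟨ρ, h1, fun w b1 b2 => ?_⟩
    have b3 := h2 w b1 b2
    rw [mem_union, not_or, mem_closedBall_zero_iff, not_le] at b3
    have b4 : 0 < ‖c.ψ w‖ := lt_trans (by positivity) b3.2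
    refine ⟨(c.ψm (mem_ball_zero_iff.2 b2)).resolve_right fun b => norm_pos_iff.1 b4 b.1,
      not_le.1 fun b => ?_⟩
    have b5 := key w b3.1 b
    rw [norm_inv, lt_inv_comm₀ (by positivity) b4] at b5
    linarith [b3.2]
  · obtain ⟨ρ, h1, h2⟩ := (conf c).away a2 a3
    refine ⟨ρ, h1, fun w b1 b2 => ?_⟩
    have b3 := (c.ψm (mem_ball_zero_iff.2 b2)).resolve_right fun b => hb b.2
    refine ⟨b3, not_le.1 fun b => b3 (h.alt.resolve_left hb _ ?_)⟩
    have b5 := key w (h2 w b1 b2) b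
    have b6 := norm_sub_le (a + (c.ψ w)⁻¹) a
    rw [add_sub_cancel_left] at b6
    linarith

/-- The barrier. -/
theorem Cp.bar (h : Cp D K a δ R) (c : Cm (Vk K a R)) {s : ℝ} (hs : 0 < s) : ∃ C > (0 : ℝ),
    ∀ p e : ℂ, ‖e‖ = s → (∀ t : ℝ, 0 ≤ t → t ≤ 1 → p - t * e ∈ K) → ∀ y ∉ K, ‖y - p‖ ≤ s / 2 →
      (1 - ‖c.φ (y - a)⁻¹‖) ^ 2 ≤ C ^ 2 * ‖y - p‖ := by
  have hv₀ := c.ψm (mem_ball_self one_pos)
  set v₀ := c.ψ 0 with hv
  obtain ⟨k, k0, hk⟩ : ∃ k > (0 : ℝ), ∀ p ∈ K, k ≤ ‖1 + (a - p) * v₀‖ := by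
    by_cases h0 : v₀ = 0
    · exact ⟨1, one_pos, fun p _ => by simp [h0]⟩
    obtain ⟨d, hd, hb⟩ := Metric.isOpen_iff.1 h.cl.isOpen_compl _
      (hv₀.resolve_right fun b => h0 b.1)
    refine ⟨d * ‖v₀‖, mul_pos hd (norm_pos_iff.2 h0), fun p hp => ?_⟩
    rw [show 1 + (a - p) * v₀ = (a + v₀⁻¹ - p) * v₀ by field_simp; ring, norm_mul]
    refine mul_le_mul_of_nonneg_right (not_lt.1 fun b => hb ?_ hp) (norm_nonneg _)
    rwa [mem_ball, dist_eq_norm, norm_sub_rev]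
  refine ⟨√(8 * (k + s * ‖v₀‖) / (k * s)), Real.sqrt_pos.2 (by positivity),
    fun p e he hseg y hy hyp => ?_⟩
  have hp : p ∈ K := by simpa using hseg 0 le_rfl zero_le_one
  have hp' : p - e ∈ K := by simpa using hseg 1 zero_le_one le_rfl
  have e1 : ∀ (v q : ℂ), v ≠ 0 → 1 + (a - q) * v = (a + v⁻¹ - q) * v := fun v q h0 => by
    field_simp; ring
  have hden : ∀ v ∈ Vk K a R, 1 + (a - (p - e)) * v ≠ 0 := by
    intro v hv
    by_cases h0 : v = 0
    · simp [h0]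
    · rw [e1 v _ h0]
      exact mul_ne_zero (sub_ne_zero.2 fun b => hv.resolve_right (fun b => h0 b.1) (b ▸ hp')) h0
  set m : ℂ → ℂ := fun v => (1 + (a - p) * v) / (1 + (a - (p - e)) * v) with hm
  have h2 : ∀ v ∈ Vk K a R, m v ∈ slitPlane := by
    intro v hv
    by_contra hcon
    rw [mem_slitPlane_iff, not_or, not_lt, not_not] at hcon
    set t : ℝ := -(m v).re with ht
    have a0 : 0 ≤ t := by linarith [hcon.1]
    have a1 : m v = -(t : ℂ) := Complex.ext (by simp [ht]) (by simp [hcon.2])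
    have a2 : 1 + (a - p) * v = -(t : ℂ) * (1 + (a - (p - e)) * v) := by
      rw [← a1, hm, div_mul_cancel₀ _ (hden v hv)]
    have a3 : (1 + t : ℂ) ≠ 0 := by exact_mod_cast (by linarith : (1 + t : ℝ) ≠ 0)
    have h0 : v ≠ 0 := fun b => a3 (by rw [b] at a2; linear_combination a2)
    refine hv.resolve_right (fun b => h0 b.1) ?_
    have a4 : a + v⁻¹ = p - ((t / (1 + t) : ℝ) : ℂ) * e := by
      push_cast
      field_simp
      linear_combination a2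
    rw [a4]
    exact hseg _ (by positivity) ((div_le_one (by linarith)).2 (by linarith))
  have h3 := bar_abs c (m := m) (DifferentiableOn.div (by fun_prop) (by fun_prop) hden) h2
    (mem_Vk hy)
  have h0 : (y - a)⁻¹ ≠ 0 := inv_ne_zero (h.ne_of hy)
  have b1 : s / 2 ≤ ‖y - (p - e)‖ := by
    have := norm_sub_le (y - (p - e)) (y - p)
    rw [show y - (p - e) - (y - p) = e by ring, he] at this
    linarith
  have b2 : ‖m (y - a)⁻¹‖ ≤ ‖y - p‖ / (s / 2) := by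
    simp only [hm]
    rw [e1 _ _ h0, e1 _ _ h0, mul_div_mul_right _ _ h0, inv_inv_add, norm_div]
    exact div_le_div_of_nonneg_left (norm_nonneg _) (half_pos hs) b1
  have b3 : k / (k + s * ‖v₀‖) ≤ ‖m v₀‖ := by
    have c1 := hk p hp
    have c2 := norm_add_le (1 + (a - p) * v₀) (e * v₀)
    rw [show 1 + (a - p) * v₀ + e * v₀ = 1 + (a - (p - e)) * v₀ by ring, norm_mul, he] at c2
    simp only [hm, norm_div]
    rw [div_le_div_iff₀ (by positivity) (norm_pos_iff.2 (hden v₀ hv₀))]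
    nlinarith [mul_le_mul_of_nonneg_left c2 k0.le,
      mul_le_mul_of_nonneg_right c1 (mul_nonneg hs.le (norm_nonneg v₀))]
  have b4 := mul_le_mul_of_nonneg_left b3 (sq_nonneg (1 - ‖c.φ (y - a)⁻¹‖))
  rw [Real.sq_sqrt (by positivity)]
  have b5 : (1 - ‖c.φ (y - a)⁻¹‖) ^ 2 * (k / (k + s * ‖v₀‖)) ≤ 4 * (‖y - p‖ / (s / 2)) := by
    linarith
  rw [← le_div_iff₀ (by positivity)] at b5
  refine b5.trans_eq ?_
  field_simp
  ring

variable {κ r : ℝ}

theorem Cn.cp (h : Cn D κ r R) {p : ℂ} (hp : p ∉ D) : ∃ a, Cp D (cc D p) a (κ * (r / 4)) R := by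
  obtain ⟨μ, -, -, hb⟩ := h.fat hp
  refine ⟨_, h.closed p, cc_pre D p, h.compl_pre p, cc_sub D p, h.conn.nonempty,
    mul_pos h.k0 (div_pos h.r0 four_pos), h.R0, hb, ?_⟩
  by_cases a : cc D p ⊆ ball 0 R
  · exact Or.inl a
  · obtain ⟨x, h1, h2⟩ := not_subset.1 a
    rw [mem_ball_zero_iff, not_lt] at h2
    exact Or.inr fun z hz => h.ext h1 h2 hz

/-- **The charts exist.** -/
theorem Cn.atlas (h : Cn D κ r R) : ∃ (ι : Type) (_ : Fintype ι), Nonempty (Atl D ι) := by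
  classical
  set s : ℝ := κ * (r / 4) with hs
  have s0 : 0 < s := mul_pos h.k0 (div_pos h.r0 four_pos)
  have s1 : s ≤ r := by nlinarith [h.k1, h.r0]
  have : Fintype (cc D '' Dᶜ) := h.finite.fintype
  have h1 : ∀ K : cc D '' Dᶜ, ∃ a, Cp D K a s R := by
    rintro ⟨_, p, hp, rfl⟩
    exact h.cp hp
  choose a ha using h1
  have c : ∀ K : cc D '' Dᶜ, Cm (Vk K (a K) R) := fun K => (ha K).cm.some
  have hK : ∀ (K : cc D '' Dᶜ), ∀ x ∈ K.1, K.1 = cc D x := by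
    rintro ⟨_, p, hp, rfl⟩ x hx
    exact cc_eq hx
  have hsep : ∀ (K : cc D '' Dᶜ), ∀ x ∈ K.1, ∀ y ∉ D, ‖y - x‖ < s → y ∈ K.1 := fun K x hx y hy b =>
    hK K x hx ▸ h.sep (mem_cc ((ha K).sub hx)) hy b
  have hD : ∀ (K : cc D '' Dᶜ), ∀ z ∈ D, z ∉ K.1 := fun K z hz b => (ha K).sub b hz
  have hι : ∀ (K : cc D '' Dᶜ), ∀ z ∈ D, HasDerivAt (fun z => (z - a K)⁻¹)
      (-((z - a K) ^ 2)⁻¹) z := fun K z hz => by
    exact (((hasDerivAt_id' z).sub_const (a K)).fun_inv ((ha K).ne_of (hD K z hz))).congr_deriv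
      (by rw [neg_div, one_div])
  have hφ : ∀ (K : cc D '' Dᶜ), ∀ z ∈ D, HasDerivAt (fun z => (c K).φ (z - a K)⁻¹)
      (deriv (c K).φ (z - a K)⁻¹ * -((z - a K) ^ 2)⁻¹) z := fun K z hz =>
    (((c K).φd.differentiableAt ((c K).op.mem_nhds (mem_Vk (hD K z hz)))).hasDerivAt).comp z
      (hι K z hz)
  have hlt : ∀ (K : cc D '' Dᶜ), ∀ z ∈ D, ‖(c K).φ (z - a K)⁻¹‖ < 1 := fun K z hz =>
    mem_ball_zero_iff.1 ((c K).φm (mem_Vk (hD K z hz)))
  have hnear : ∀ (K : cc D '' Dᶜ), ∀ η > (0 : ℝ), ∀ᶠ ρ in 𝓝[<] (1 : ℝ), ∀ w : ℂ, ρ < ‖w‖ →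
      ‖w‖ < 1 → a K + ((c K).ψ w)⁻¹ ∉ K.1 ∧ infDist (a K + ((c K).ψ w)⁻¹) K < η := by
    intro K η hη
    obtain ⟨ρ, b1, b2⟩ := (ha K).near (c K) hη
    filter_upwards [Ioo_mem_nhdsLT b1] with ρ' b w b3 b4 using b2 w (b.1.trans b3) b4
  have hback : ∀ (K : cc D '' Dᶜ), ∀ z ∈ D, a K + ((c K).ψ ((c K).φ (z - a K)⁻¹))⁻¹ = z :=
    fun K z hz => by rw [(c K).li _ (mem_Vk (hD K z hz)), inv_inv_add]
  obtain ⟨r₀, hr₀, r1⟩ := ((eventually_all.2 fun K => hnear K _ (half_pos s0)).and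
    (Ioo_mem_nhdsLT one_pos)).exists
  have hbd : Bornology.IsBounded D := isBounded_ball.subset h.sub
  refine ⟨_, this, ⟨⟨⟨fun K z => (c K).φ (z - a K)⁻¹, r₀, r1.1, r1.2, h.op, hbd,
    fun K z hz => (hφ K z hz).differentiableAt.differentiableWithinAt,
    fun K z hz z' hz' e => ?_, fun K z hz => ?_, hlt, fun i j z hz b1 b2 => ?_, fun ρ hρ => ?_⟩,
    fun K w => a K + ((c K).ψ w)⁻¹, fun K => K, fun K w b1 b2 => ?_, fun K => (ha K).cl,
    fun K => (ha K).pre, fun K => (ha K).sub, fun K => ⟨_, (ha K).mem⟩, fun K η hη => ?_,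
    fun K ε hε => ?_⟩⟩⟩
  · rw [← hback K z hz, ← hback K z' hz']
    exact congrArg (fun w => a K + ((c K).ψ w)⁻¹) e
  · rw [(hφ K z hz).deriv]
    refine mul_ne_zero (fun e => ?_)
      (neg_ne_zero.2 (inv_ne_zero (pow_ne_zero 2 ((ha K).ne_of (hD K z hz)))))
    have b0 := mem_Vk (a := a K) (R := R) (hD K z hz)
    have b1 := ((c K).φd.differentiableAt ((c K).op.mem_nhds b0)).hasDerivAt
    have b2 := ((c K).ψd.differentiableAt (isOpen_ball.mem_nhds ((c K).φm b0))).hasDerivAt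
    have b3 := (b2.comp _ b1).unique ((hasDerivAt_id _).congr_of_eventuallyEq
      (by filter_upwards [(c K).op.mem_nhds b0] with y hy using (c K).li y hy))
    rw [e, mul_zero] at b3
    exact zero_ne_one b3
  · have c1 := (hr₀ i _ b1 (hlt i z hz)).2
    have c2 := (hr₀ j _ b2 (hlt j z hz)).2
    rw [hback _ z hz] at c1 c2
    obtain ⟨x, hx, c3⟩ := (infDist_lt_iff ⟨_, (ha i).mem⟩).1 c1
    obtain ⟨y, hy, c4⟩ := (infDist_lt_iff ⟨_, (ha j).mem⟩).1 c2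
    have c5 := hsep i x hx y ((ha j).sub hy) (by
      rw [← dist_eq_norm]; linarith [dist_triangle_left y x z])
    exact Subtype.ext ((hK i y c5).trans (hK j y hy).symm)
  · have hsub : closedBall (0 : ℂ) ρ ⊆ ball 0 1 := closedBall_subset_ball hρ
    have hne : ∀ (K : cc D '' Dᶜ), ∀ z ∈ closure D, z - a K ≠ 0 := fun K z hz e => by
      rw [sub_eq_zero.1 e] at hz
      obtain ⟨y, b1, b2⟩ := mem_closure_iff_nhds.1 hz _ (ball_mem_nhds _ s0)
      exact hD K y b2 ((ha K).fat b1)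
    refine ⟨closure D ∩ ⋂ K : cc D '' Dᶜ, closure D ∩ (fun z => (z - a K)⁻¹) ⁻¹'
      ((c K).ψ '' closedBall 0 ρ), hbd.isCompact_closure.inter_right (isClosed_iInter fun K =>
        (ContinuousOn.inv₀ (by fun_prop) (hne K)).preimage_isClosed_of_isClosed isClosed_closure
          ((isCompact_closedBall _ _).image_of_continuousOn
            ((c K).ψd.continuousOn.mono hsub)).isClosed), fun z hz => by_contra fun b => ?_,
      fun z hz hzK => by_contra fun b => hzK ⟨subset_closure hz, mem_iInter.2 fun K =>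
        ⟨subset_closure hz, _, mem_closedBall_zero_iff.2 (not_lt.1 fun e => b ⟨K, e⟩),
          (c K).li _ (mem_Vk (hD K z hz))⟩⟩⟩
    obtain ⟨-, w, hw, e⟩ := mem_iInter.1 hz.2 ⟨_, z, b, rfl⟩
    have e' := (c ⟨_, z, b, rfl⟩).ψm (hsub hw)
    rw [e] at e'
    exact (ha ⟨_, z, b, rfl⟩).not_mem_Vk (mem_cc b) (sub_ne_zero.1 (hne _ z hz.1)) e'
  · obtain ⟨c1, c2⟩ := hr₀ K w b1 b2
    have hw := mem_ball_zero_iff.2 b2
    have c3 : (c K).ψ w ≠ 0 := fun e => c1 (by simpa [e] using (ha K).mem)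
    obtain ⟨x, hx, c4⟩ := (infDist_lt_iff ⟨_, (ha K).mem⟩).1 c2
    refine ⟨by_contra fun b => c1 (hsep K x hx _ b (by rw [← dist_eq_norm]; linarith)), ?_,
      (((c K).ψd.differentiableAt (isOpen_ball.mem_nhds hw)).inv c3).const_add _⟩
    simp only [add_sub_cancel_left, inv_inv]
    exact (c K).ri w hw
  · obtain ⟨ρ, b1, b2⟩ := ((hnear K η hη).and self_mem_nhdsWithin).exists
    refine ⟨ρ, b2, fun z hz b => ?_⟩
    have := (b1 _ b (hlt K z hz)).2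
    rwa [hback K z hz] at this
  · obtain ⟨C, hC, hb⟩ := (ha K).bar (c K) (div_pos s0 four_pos)
    refine osc_near ⟨h.op, fun z hz => (hφ K z hz).differentiableAt.differentiableWithinAt,
      fun z hz => mem_ball_zero_iff.2 (hlt K z hz)⟩ h.k0 h.k1 s0 hC (fun p₀ hp₀ => ?_) hε
    obtain ⟨μ, hμ, hO⟩ := h.oc p₀ ((ha K).sub hp₀)
    refine ⟨(ha K).sub hp₀, μ, hμ, fun y hy b1 t ht x b2 b3 => hO y hy (by linarith) t ht x b2
      (by linarith), fun p hp b1 y hy b2 => hb p ((s / 4 : ℝ) * μ) (norm_rmul hμ (by positivity))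
        (fun t t0 t1 => ?_) y (hD K y hy) (by linarith)⟩
    have := OC_down hμ h.k0 hO hp (s := t * (s / 4)) (by positivity) (by nlinarith)
    rw [hK K p (hsep K p₀ hp₀ p hp (by linarith)), ← mul_assoc]
    rwa [ofReal_mul] at this

/-- The connected domains of the class have charts. -/
theorem cn_of_lip3 (h : P144Q.L.Lip3 D) (hc : IsConnected D) : ∃ κ r R, Cn D κ r R := by
  obtain ⟨ho, hb, γ, r, hγ, hr, h⟩ := h
  obtain ⟨R, R0, hR⟩ := hb.subset_ball_lt 0 0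
  exact ⟨_, r, R, ho, hc, lt_min (half_pos hγ) one_pos, min_le_right _ _, hr, R0, hR,
    fun p₀ _ => P144Q.R.oc_of_chart (h p₀)⟩

theorem atlas (h : P144Q.L.Lip3 D) (hc : IsConnected D) :
    ∃ (ι : Type) (_ : Fintype ι), Nonempty (Atl D ι) := by
  obtain ⟨κ, r, R, h⟩ := cn_of_lip3 h hc
  exact h.atlas

end Vale.Agent.P144M
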