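import Vale.Agent.P144G.Uq1
import Mathlib.Analysis.Calculus.LineDeriv.IntegrationByParts
import Mathlib.Analysis.SpecialFunctions.SmoothTransition
import Mathlib.MeasureTheory.Function.Jacobian
import Mathlib.MeasureTheory.Measure.Lebesgue.VolumeOfBalls
import Mathlib.RingTheory.Complex
import Mathlib.Analysis.InnerProductSpace.Calculus

/-!
Green's formula for holomorphic functions and compactly supported cut-offs.
-/

namespace Vale.Agent.P144M

open Filter Topology Complex Metric Set MeasureTheory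
open Vale.Agent.P144.H170 (HD)
open scoped ComplexConjugate

theorem HD_sum {ι : Type*} (T : Finset ι) {u : ι → ℂ → ℝ} {G : ι → ℂ → ℂ} {z : ℂ}
    (h : ∀ j ∈ T, HD (u j) (G j) z) : HD (fun w => ∑ j ∈ T, u j w) (fun w => ∑ j ∈ T, G j w) z := by
  refine (HasFDerivAt.fun_sum (fun j hj => h j hj)).congr_fderiv
    (ContinuousLinearMap.ext fun w => ?_)
  simp only [FunLike.coe_sum, Finset.sum_apply, add_apply, smul_apply, reCLM_apply,
    imCLM_apply, smul_eq_mul, re_sum, im_sum, Finset.sum_add_distrib, Finset.sum_mul, neg_mul,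
    Finset.sum_neg_distrib]

theorem HD_nsq {φ : ℂ → ℂ} {φ' z : ℂ} (h : HasDerivAt φ φ' z) :
    HD (fun w => ‖φ w‖ ^ 2) (fun _ => 2 * (conj (φ z) * φ')) z := by
  have h1 := (h.hasFDerivAt.restrictScalars ℝ).norm_sq
  refine h1.congr_fderiv (ContinuousLinearMap.ext fun w => ?_)
  simp
  ring

theorem HD_real {u : ℂ → ℝ} {G : ℂ → ℂ} {z : ℂ} (h : HD u G z) {θ : ℝ → ℝ} {θ' : ℝ}
    (hθ : HasDerivAt θ θ' (u z)) : HD (fun w => θ (u w)) (fun w => θ' * G w) z := by
  refine (hθ.comp_hasFDerivAt z h).congr_fderiv (ContinuousLinearMap.ext fun w => ?_)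
  simp only [add_apply, smul_apply, reCLM_apply, imCLM_apply, smul_eq_mul, re_ofReal_mul,
    im_ofReal_mul]
  ring

/-- **Green's formula.** -/
theorem green {U K : Set ℂ} (hU : IsOpen U) (hK : IsCompact K) (hKU : K ⊆ U) {f G : ℂ → ℂ}
    {χ : ℂ → ℝ} (hf : DifferentiableOn ℂ f U) (hχ : ∀ z ∈ U, HD χ G z) (hG : ContinuousOn G U)
    (h0 : ∀ z ∈ U, z ∉ K → χ z = 0) : ∫ z in K, f z * conj (G z) = 0 := by
  set F : ℂ → ℂ := K.indicator fun z => χ z * f z with hF
  set F' : ℂ → ℂ → ℂ := fun v => K.indicator fun z =>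
    χ z * (v * deriv f z) + ((G z * v).re : ℂ) * f z with hF'
  have hd : ∀ z, DifferentiableAt ℝ F z ∧ ∀ v, fderiv ℝ F z v = F' v z := by
    intro z
    by_cases hz : z ∈ K
    · have hn := hU.mem_nhds (hKU hz)
      have a1 := (ofRealCLM.hasFDerivAt.comp z (hχ z (hKU hz))).mul
        ((hf.differentiableAt hn).hasDerivAt.hasFDerivAt.restrictScalars ℝ)
      have a2 := a1.congr_of_eventuallyEq (f₁ := F) (by
        filter_upwards [hn] with y hy
        by_cases h : y ∈ K
        · simp [hF, h]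
        · simp [hF, h, h0 y hy h])
      refine ⟨a2.differentiableAt, fun v => ?_⟩
      rw [a2.fderiv]
      simp [hF', hz]
      ring
    · have a2 : HasFDerivAt F (0 : ℂ →L[ℝ] ℂ) z :=
        (hasFDerivAt_const (0 : ℂ) z).congr_of_eventuallyEq (by
          filter_upwards [hK.isClosed.isOpen_compl.mem_nhds hz] with y hy
          exact indicator_of_notMem hy _)
      refine ⟨a2.differentiableAt, fun v => ?_⟩
      rw [a2.fderiv]
      simp [hF', hz]
  have hχc : ContinuousOn χ U := fun z hz =>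
    (HasFDerivAt.continuousAt (hχ z hz)).continuousWithinAt
  have hfc := hf.continuousOn
  have hf'c := (hf.deriv hU).continuousOn
  have iF : Integrable F := (integrable_indicator_iff hK.measurableSet).2
    (ContinuousOn.integrableOn_compact hK (ContinuousOn.mono (by fun_prop) hKU))
  have iF' : ∀ v, Integrable (F' v) := fun v => (integrable_indicator_iff hK.measurableSet).2
    (ContinuousOn.integrableOn_compact hK (ContinuousOn.mono (by fun_prop) hKU))
  have key : ∀ v, ∫ z, F' v z = 0 := by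
    intro v
    have := integral_mul_fderiv_eq_neg_fderiv_mul_of_integrable (μ := volume) (v := v)
      (f := fun _ : ℂ => (1 : ℂ)) (g := F) (by simp) (by simpa [(hd _).2] using iF' v)
      (by simpa using iF) (fun _ _ => differentiableAt_const _) fun z _ => (hd z).1
    simpa [(hd _).2] using this
  have e : ∀ z, K.indicator (fun z => f z * conj (G z)) z = F' 1 z + I * F' I z := by
    intro z
    by_cases hz : z ∈ K
    · simp only [hF', indicator_of_mem hz, mul_one, mul_I_re]
      conv_lhs => rw [← re_add_im (G z)]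
      simp only [map_add, map_mul, conj_ofReal, conj_I, ofReal_neg]
      linear_combination (-(χ z : ℂ) * deriv f z) * I_mul_I
    · simp [hF', hz]
  rw [← integral_indicator hK.measurableSet]
  simp only [e]
  rw [integral_add (iF' 1) ((iF' I).const_mul I), integral_const_mul, key, key, mul_zero, add_zero]

/-- The cut-off. -/
noncomputable def th (s δ t : ℝ) : ℝ := Real.smoothTransition ((t - s) / δ)

/-- Its derivative. -/
noncomputable def dt (s δ t : ℝ) : ℝ := deriv Real.smoothTransition ((t - s) / δ) / δ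

theorem T_diff : Differentiable ℝ Real.smoothTransition :=
  (Real.smoothTransition.contDiff (n := 1)).differentiable one_ne_zero

theorem T_cont : Continuous (deriv Real.smoothTransition) :=
  (Real.smoothTransition.contDiff (n := 1)).continuous_deriv le_rfl

theorem T_zero {x : ℝ} (h : x < 0 ∨ 1 < x) : deriv Real.smoothTransition x = 0 := by
  rcases h with h | h
  · refine ((hasDerivAt_const x (0 : ℝ)).congr_of_eventuallyEq ?_).deriv
    filter_upwards [gt_mem_nhds h] with y hy using Real.smoothTransition.zero_of_nonpos hy.le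
  · refine ((hasDerivAt_const x (1 : ℝ)).congr_of_eventuallyEq ?_).deriv
    filter_upwards [lt_mem_nhds h] with y hy using Real.smoothTransition.one_of_one_le hy.le

theorem T_bdd : ∃ C > (0 : ℝ), ∀ x, deriv Real.smoothTransition x ≤ C := by
  obtain ⟨C, hC⟩ := (isCompact_Icc (a := (0 : ℝ)) (b := 1)).exists_bound_of_continuousOn
    T_cont.continuousOn
  refine ⟨max C 1, lt_max_of_lt_right one_pos, fun x => ?_⟩
  by_cases h : x ∈ Icc (0 : ℝ) 1
  · exact ((le_abs_self _).trans (hC x h)).trans (le_max_left _ _)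
  · rw [mem_Icc, not_and_or, not_le, not_le] at h
    rw [T_zero h]; positivity

variable {s δ t : ℝ}

theorem th_deriv (s δ t : ℝ) : HasDerivAt (th s δ) (dt s δ t) t := by
  have := (T_diff ((t - s) / δ)).hasDerivAt.comp t (((hasDerivAt_id t).sub_const s).div_const δ)
  refine this.congr_deriv ?_
  unfold dt; ring

theorem th_zero (hδ : 0 < δ) (h : t ≤ s) : th s δ t = 0 :=
  Real.smoothTransition.zero_of_nonpos (div_nonpos_of_nonpos_of_nonneg (by linarith) hδ.le)

theorem th_one (hδ : 0 < δ) (h : s + δ ≤ t) : th s δ t = 1 :=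
  Real.smoothTransition.one_of_one_le ((one_le_div hδ).2 (by linarith))

theorem dt_nn (hδ : 0 < δ) (t : ℝ) : 0 ≤ dt s δ t :=
  div_nonneg Real.smoothTransition.monotone.deriv_nonneg hδ.le

theorem dt_zero (hδ : 0 < δ) (h : t < s ∨ s + δ < t) : dt s δ t = 0 := by
  unfold dt
  rw [T_zero (h.imp (fun h => div_neg_of_neg_of_pos (by linarith) hδ) fun h =>
    (one_lt_div hδ).2 (by linarith)), zero_div]

@[fun_prop] theorem dt_cont (s δ : ℝ) : Continuous (dt s δ) :=
  (T_cont.comp (by fun_prop)).div_const δ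

theorem HD_th {φ : ℂ → ℂ} {φ' z : ℂ} (h : HasDerivAt φ φ' z) (s δ : ℝ) :
    HD (fun w => th s δ (‖φ w‖ ^ 2))
      (fun _ => dt s δ (‖φ z‖ ^ 2) * (2 * (conj (φ z) * φ'))) z :=
  HD_real (HD_nsq h) (th_deriv s δ _)

theorem abs_det (a : ℂ) :
    |((ContinuousLinearMap.toSpanSingleton ℂ a).restrictScalars ℝ : ℂ →L[ℝ] ℂ).det| = ‖a‖ ^ 2 := by
  simp [ContinuousLinearMap.det, LinearMap.det_restrictScalars, Algebra.norm_complex_eq,
    Complex.normSq_eq_norm_sq]

/-- The mass of the cut-off is bounded. -/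
theorem mass_le : ∃ C > (0 : ℝ), ∀ (φ : ℂ → ℂ) (U S : Set ℂ) (s δ : ℝ), IsOpen U → IsCompact S →
    S ⊆ U → DifferentiableOn ℂ φ U → InjOn φ U → 0 ≤ s → 0 < δ →
    ∫ z in S, dt s δ (‖φ z‖ ^ 2) * ‖deriv φ z‖ ^ 2 ≤ C := by
  obtain ⟨C, hC, hT⟩ := T_bdd
  refine ⟨C * Real.pi, by positivity, fun φ U S s δ hU hS hSU hφ hi hs hδ => ?_⟩
  have h1 := integral_image_eq_integral_abs_det_fderiv_smul volume hS.measurableSet
    (fun z hz => ((hφ.differentiableAt (hU.mem_nhds (hSU hz))).hasDerivAt.hasFDerivAt.restrictScalars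
      ℝ).hasFDerivWithinAt) (hi.mono hSU) fun w => dt s δ (‖w‖ ^ 2)
  simp only [abs_det, smul_eq_mul] at h1
  simp only [mul_comm (dt s δ _)]
  rw [← h1]
  set A : Set ℂ := closedBall 0 √(s + δ) \ ball 0 √s with hA
  have hAc : IsCompact A := (isCompact_closedBall _ _).diff isOpen_ball
  have hz : ∀ w ∉ A, dt s δ (‖w‖ ^ 2) = 0 := by
    intro w hw
    rw [hA, Set.mem_sdiff, not_and_or, not_not, mem_closedBall_zero_iff, mem_ball_zero_iff,
      not_le] at hw
    refine dt_zero hδ (hw.symm.imp (fun h => ?_) fun h => ?_)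
    · exact (Real.lt_sqrt (norm_nonneg _)).1 h
    · exact (Real.sqrt_lt' ((Real.sqrt_nonneg _).trans_lt h)).1 h
  have hi1 : IntegrableOn (fun w : ℂ => dt s δ (‖w‖ ^ 2)) A :=
    ContinuousOn.integrableOn_compact hAc (by fun_prop)
  have hi2 : Integrable fun w : ℂ => dt s δ (‖w‖ ^ 2) :=
    (integrableOn_iff_integrable_of_support_subset fun w hw => by
      by_contra h; exact hw (hz w h)).1 hi1
  have hv : volume.real A = Real.pi * δ := by
    rw [hA, measureReal_sdiff (ball_subset_closedBall.trans (closedBall_subset_closedBall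
      (Real.sqrt_le_sqrt (by linarith)))) measurableSet_ball measure_closedBall_lt_top.ne,
      Measure.real, Measure.real, Complex.volume_ball, Complex.volume_closedBall]
    simp only [ENNReal.toReal_mul, ENNReal.toReal_pow, ENNReal.toReal_ofReal (Real.sqrt_nonneg _),
      ENNReal.coe_toReal, NNReal.coe_real_pi]
    rw [Real.sq_sqrt hs, Real.sq_sqrt (by linarith)]
    ring
  calc ∫ w in φ '' S, dt s δ (‖w‖ ^ 2) ≤ ∫ w : ℂ, dt s δ (‖w‖ ^ 2) :=
        setIntegral_le_integral hi2 (Eventually.of_forall fun w => dt_nn hδ _)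
    _ = ∫ w in A, dt s δ (‖w‖ ^ 2) :=
        (setIntegral_eq_integral_of_forall_compl_eq_zero hz).symm
    _ ≤ ∫ _ in A, C / δ := setIntegral_mono_on hi1 (integrableOn_const hAc.measure_lt_top.ne)
        hAc.measurableSet fun w _ => div_le_div_of_nonneg_right (hT _) hδ.le
    _ = C * Real.pi := by rw [setIntegral_const, hv, smul_eq_mul]; field_simp

/-- The mass of the cut-off around a point is positive. -/
theorem mass_pos (m : ℂ) {e : ℝ} (he : 0 < e) :
    0 < ∫ z in closedBall m (2 * e) \ ball m e, dt (e ^ 2) (e ^ 2) (‖z - m‖ ^ 2) := by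
  have he2 : 0 < e ^ 2 := by positivity
  have hz : ∀ z ∉ closedBall m (2 * e) \ ball m e, dt (e ^ 2) (e ^ 2) (‖z - m‖ ^ 2) = 0 := by
    intro z hz
    rw [Set.mem_sdiff, not_and_or, not_not, mem_closedBall, mem_ball, not_le, dist_eq_norm] at hz
    exact dt_zero he2 (hz.symm.imp (fun h => by nlinarith [norm_nonneg (z - m)])
      fun h => by nlinarith)
  rw [setIntegral_eq_integral_of_forall_compl_eq_zero hz]
  obtain ⟨t, ht, h⟩ := exists_hasDerivAt_eq_slope (th (e ^ 2) (e ^ 2)) (dt (e ^ 2) (e ^ 2))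
    (show e ^ 2 < e ^ 2 + e ^ 2 by linarith)
    (fun t _ => (th_deriv _ _ t).continuousAt.continuousWithinAt) fun t _ => th_deriv _ _ t
  rw [th_one he2 le_rfl, th_zero he2 le_rfl] at h
  refine Continuous.integral_pos_of_hasCompactSupport_nonneg_nonzero (x := m + √t) (by fun_prop)
    (HasCompactSupport.intro ((isCompact_closedBall _ _).diff isOpen_ball) hz)
    (fun z => dt_nn he2 _) ?_
  rw [add_sub_cancel_left, norm_real, Real.norm_of_nonneg (Real.sqrt_nonneg _),
    Real.sq_sqrt (by linarith [ht.1]), h]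
  exact (div_pos (by norm_num) (by linarith)).ne'

end Vale.Agent.P144M
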