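import Vale.Agent.P144Q.R.Uc

/-!
The components of the complement of a domain with the cone condition.
-/

namespace Vale.Agent.P144M

open Filter Topology Metric Set Complex
open Vale.Agent.P144Q.R (OC norm_rmul)

theorem pre_polar {S : Set ℝ} (hS : IsPreconnected S) (h0 : S ⊆ Ici 0) (a : ℂ) :
    IsPreconnected {z : ℂ | ‖z - a‖ ∈ S} := by
  have h := (hS.prod (isPreconnected_univ (α := ℝ))).image
    (fun q : ℝ × ℝ => a + q.1 * exp (q.2 * I)) (by fun_prop)
  convert h using 1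
  ext z
  constructor
  · intro hz
    exact ⟨(‖z - a‖, arg (z - a)), ⟨hz, trivial⟩, by simp [norm_mul_exp_arg_mul_I]⟩
  · rintro ⟨q, hq, rfl⟩
    simp only [mem_ofPred_eq, add_sub_cancel_left, norm_mul, norm_exp_ofReal_mul_I, mul_one,
      norm_real, Real.norm_of_nonneg (h0 hq.1)]
    exact hq.1

/-- An interior point can be removed from a connected set. -/
theorem pre_diff_pt {S : Set ℂ} (hS : IsPreconnected S) {a : ℂ} (ha : S ∈ 𝓝 a) :
    IsPreconnected (S \ {a}) := by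
  classical
  obtain ⟨δ, hδ, hb⟩ := Metric.mem_nhds_iff.1 ha
  have hP := pre_polar (isPreconnected_Ioo (a := (0 : ℝ)) (b := δ)) (fun t ht => ht.1.le) a
  have hs : {z : ℂ | ‖z - a‖ ∈ Ioo 0 δ} ⊆ S \ {a} := fun z hz =>
    ⟨hb (by rw [mem_ball, dist_eq_norm]; exact hz.2), sub_ne_zero.1 (norm_pos_iff.1 hz.1)⟩
  have hm : a + (δ / 2 : ℝ) ∈ {z : ℂ | ‖z - a‖ ∈ Ioo 0 δ} := by
    simp only [mem_ofPred_eq, add_sub_cancel_left, norm_real, Real.norm_of_nonneg (half_pos hδ).le]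
    exact ⟨half_pos hδ, half_lt_self hδ⟩
  refine isPreconnected_of_forall_constant fun f hf x hx y hy => ?_
  have hc : ContinuousOn (Function.update f a (f (a + (δ / 2 : ℝ)))) S := by
    intro z hz
    by_cases h : z = a
    · subst h
      refine ((continuousAt_const (y := f (z + (δ / 2 : ℝ)))).congr ?_).continuousWithinAt
      filter_upwards [ball_mem_nhds z hδ] with w hw
      by_cases h : w = z
      · rw [h, Function.update_self]
      · rw [Function.update_of_ne h]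
        rw [mem_ball, dist_eq_norm] at hw
        exact hP.constant (hf.mono hs) hm ⟨norm_pos_iff.2 (sub_ne_zero.2 h), hw⟩
    · have h1 : {a}ᶜ ∈ 𝓝 z := isOpen_compl_singleton.mem_nhds h
      rw [← continuousWithinAt_inter h1]
      exact (hf z ⟨hz, h⟩).congr (fun w hw => Function.update_of_ne hw.2 _ _)
        (Function.update_of_ne h _ _)
  have := hS.constant hc hx.1 hy.1
  rwa [Function.update_of_ne hx.2, Function.update_of_ne hy.2] at this

theorem pre_diff_fin {D : Set ℂ} (ho : IsOpen D) (hD : IsPreconnected D) {T : Set ℂ}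
    (hT : T.Finite) : IsPreconnected (D \ T) := by
  induction T, hT using Set.Finite.induction_on with
  | empty => rwa [sdiff_empty]
  | @insert a T _ hT ih =>
    rw [insert_eq, union_comm, ← sdiff_sdiff]
    by_cases h : a ∈ D \ T
    · exact pre_diff_pt ih ((ho.sdiff hT.isClosed).mem_nhds h)
    · rwa [sdiff_singleton_eq_self h]

/-- Bounded connected open sets with the uniform cone condition. -/
structure Cn (D : Set ℂ) (κ r R : ℝ) : Prop where
  op : IsOpen D
  conn : IsConnected D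
  k0 : 0 < κ
  k1 : κ ≤ 1
  r0 : 0 < r
  R0 : 0 < R
  sub : D ⊆ ball 0 R
  oc : ∀ p₀ ∉ D, ∃ μ : ℂ, ‖μ‖ = 1 ∧ OC D κ r p₀ μ

/-- The component of the complement. -/
def cc (D : Set ℂ) (p : ℂ) : Set ℂ := connectedComponentIn Dᶜ p

variable {D : Set ℂ} {κ r R : ℝ} {p p' : ℂ}

theorem cc_sub (D : Set ℂ) (p : ℂ) : cc D p ⊆ Dᶜ := connectedComponentIn_subset _ _

theorem mem_cc (hp : p ∉ D) : p ∈ cc D p := mem_connectedComponentIn hp

theorem cc_pre (D : Set ℂ) (p : ℂ) : IsPreconnected (cc D p) := isPreconnected_connectedComponentIn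

theorem cc_eq (h : p' ∈ cc D p) : cc D p = cc D p' := connectedComponentIn_eq h

theorem sub_cc {C : Set ℂ} (hC : IsPreconnected C) (hs : C ⊆ Dᶜ) {x : ℂ} (h1 : x ∈ C)
    (h2 : x ∈ cc D p) : C ⊆ cc D p := cc_eq h2 ▸ hC.subset_connectedComponentIn h1 hs

/-- Going down from an outer point one stays in the component. -/
theorem OC_down {p₀ μ : ℂ} (hμ : ‖μ‖ = 1) (k0 : 0 < κ) (hO : OC D κ r p₀ μ) (hp : p ∉ D) {s : ℝ}
    (h0 : 0 ≤ s) (h1 : ‖p - p₀‖ + s < r) : p - s * μ ∈ cc D p := by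
  refine sub_cc (isPreconnected_Icc.image (fun t : ℝ => p - t * μ) (by fun_prop)) ?_
    ⟨0, ⟨le_rfl, h0⟩, by simp⟩ (mem_cc hp) ⟨s, ⟨h0, le_rfl⟩, rfl⟩
  rintro _ ⟨t, ht, rfl⟩ hD
  rcases ht.1.eq_or_lt with rfl | t0
  · exact hp (by simpa using hD)
  · have := norm_sub_le (p - p₀) (t * μ)
    rw [norm_rmul hμ ht.1, sub_right_comm] at this
    exact hp (hO _ hD (by linarith [ht.2]) t t0 p (by simpa using mul_pos k0 t0) (by linarith))

theorem Cn.fat (h : Cn D κ r R) (hp : p ∉ D) : ∃ μ : ℂ, ‖μ‖ = 1 ∧ OC D κ r p μ ∧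
    ball (p - (r / 4 : ℝ) * μ) (κ * (r / 4)) ⊆ cc D p := by
  obtain ⟨μ, hμ, hO⟩ := h.oc p hp
  have r0 := h.r0
  have a0 : 0 < κ * (r / 4) := mul_pos h.k0 (by positivity)
  refine ⟨μ, hμ, hO, sub_cc (convex_ball _ _).isPreconnected (fun x hx hD => hp ?_)
    (mem_ball_self a0) (OC_down hμ h.k0 hO hp (by positivity) (by simp; linarith))⟩
  rw [mem_ball, dist_eq_norm] at hx
  have a1 := norm_sub_le (x - (p - (r / 4 : ℝ) * μ)) ((r / 4 : ℝ) * μ)
  rw [norm_rmul hμ (by positivity),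
    show x - (p - (r / 4 : ℝ) * μ) - (r / 4 : ℝ) * μ = x - p by ring] at a1
  refine hO x hD (by nlinarith [h.k1]) (r / 4) (by positivity) p ?_ (by simpa using r0)
  rwa [show p - (x + (r / 4 : ℝ) * μ) = -(x - (p - (r / 4 : ℝ) * μ)) by ring, norm_neg]

/-- Close outer points are in the same component. -/
theorem Cn.sep (h : Cn D κ r R) {x y : ℂ} (hx : x ∈ cc D p) (hy : y ∉ D)
    (hd : ‖y - x‖ < κ * (r / 4)) : y ∈ cc D p := by
  obtain ⟨μ, hμ, hO, hb⟩ := h.fat (cc_sub D p hx)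
  have r0 := h.r0
  have a1 := OC_down hμ h.k0 hO hy (s := r / 4) (by positivity) (by nlinarith [h.k1])
  have a2 := hb (show y - (r / 4 : ℝ) * μ ∈ ball (x - (r / 4 : ℝ) * μ) (κ * (r / 4)) by
    rwa [mem_ball, dist_eq_norm, sub_sub_sub_cancel_right])
  rw [cc_eq hx, cc_eq a2, ← cc_eq a1]
  exact mem_cc hy

theorem Cn.closed (h : Cn D κ r R) (p : ℂ) : IsClosed (cc D p) := by
  refine isClosed_of_closure_subset fun y hy => ?_
  obtain ⟨x, hx, hd⟩ := Metric.mem_closure_iff.1 hy _ (mul_pos h.k0 (div_pos h.r0 four_pos))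
  exact h.sep hx (closure_minimal (cc_sub D p) h.op.isClosed_compl hy) (by rwa [← dist_eq_norm])

theorem Cn.out (h : Cn D κ r R) {z : ℂ} (hz : R ≤ ‖z‖) : z ∉ D := fun hD =>
  absurd (mem_ball_zero_iff.1 (h.sub hD)) (not_lt.2 hz)

theorem Cn.ext (h : Cn D κ r R) {x y : ℂ} (hx : x ∈ cc D p) (h1 : R ≤ ‖x‖) (h2 : R ≤ ‖y‖) :
    y ∈ cc D p :=
  sub_cc (pre_polar (isPreconnected_Ici (a := R)) (fun _ ht => h.R0.le.trans ht) 0)
    (fun z hz => h.out (by simpa using hz)) (by simpa using h1) hx (by simpa using h2)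

theorem Cn.finite (h : Cn D κ r R) : (cc D '' Dᶜ).Finite := by
  obtain ⟨T, h1, h2, h3⟩ := ((isCompact_closedBall (0 : ℂ) R).inter_left
    h.op.isClosed_compl).finite_cover_balls (mul_pos h.k0 (div_pos h.r0 four_pos))
  refine (h2.image (cc D)).subset ?_
  have key : ∀ p ∉ D, ‖p‖ ≤ R → cc D p ∈ cc D '' T := by
    intro p hp hR
    obtain ⟨t, ht, hb⟩ := mem_iUnion₂.1 (h3 ⟨hp, mem_closedBall_zero_iff.2 hR⟩)
    exact ⟨t, ht, cc_eq (h.sep (mem_cc (h1 ht).1) hp (by rwa [mem_ball, dist_eq_norm] at hb))⟩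
  rintro _ ⟨p, hp, rfl⟩
  rcases le_total ‖p‖ R with a | a
  · exact key p hp a
  · have e : ‖(R : ℂ)‖ = R := by rw [norm_real, Real.norm_of_nonneg h.R0.le]
    rw [cc_eq (h.ext (mem_cc hp) a e.ge)]
    exact key _ (h.out e.ge) e.le

/-- The complement of a component is connected. -/
theorem Cn.compl_pre (h : Cn D κ r R) (p : ℂ) : IsPreconnected (cc D p)ᶜ := by
  obtain ⟨x, hx⟩ := h.conn.nonempty
  have hD : D ⊆ (cc D p)ᶜ := fun z hz a => cc_sub D p a hz
  refine isPreconnected_of_forall x fun y hy => ?_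
  by_cases a : y ∈ D
  · exact ⟨D, hD, hx, a, h.conn.isPreconnected⟩
  obtain ⟨q, hq⟩ : (frontier (cc D y)).Nonempty := nonempty_frontier_iff.2
    ⟨⟨y, mem_cc a⟩, fun e => cc_sub D y (e.symm ▸ mem_univ x) hx⟩
  have q1 : q ∈ cc D y := (h.closed y).frontier_subset hq
  have q2 : q ∈ closure D := by
    rw [Metric.mem_closure_iff]
    intro ε hε
    rw [← frontier_compl] at hq
    obtain ⟨z, hz, hd⟩ := Metric.mem_closure_iff.1 (frontier_subset_closure hq) _
      (lt_min hε (mul_pos h.k0 (div_pos h.r0 four_pos)))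
    refine ⟨z, by_contra fun b => hz (h.sep q1 b ?_), hd.trans_le (min_le_left _ _)⟩
    rw [← dist_eq_norm, dist_comm]
    exact hd.trans_le (min_le_right _ _)
  refine ⟨insert q D ∪ cc D y, ?_, Or.inl (Or.inr hx), Or.inr (mem_cc a),
    IsPreconnected.union q (mem_insert q D) q1 (h.conn.isPreconnected.subset_closure
      (subset_insert q D) (insert_subset q2 subset_closure)) (cc_pre D y)⟩
  have b : cc D y ⊆ (cc D p)ᶜ := fun z hz c => hy (by rw [cc_eq c, ← cc_eq hz]; exact mem_cc a)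
  exact union_subset (insert_subset (b q1) hD) b

end Vale.Agent.P144M
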