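import Vale.Agent.P144M.Green
import Vale.Agent.P144G.Uq2
import Vale.Agent.P144Q.Defs

/-!
Uniqueness for the boundary value problem in a multiply connected domain.
-/

namespace Vale.Agent.P144M

open Filter Topology Complex Metric Set MeasureTheory
open Vale.Agent.P144.H170 (HD F2 gq PP Mk)
open Vale.Agent.P144.H365 (cH ResNN MF mem_MF PP_eq rs rs_real rs_sub pfrac)
open Vale.Agent.P144G (HD_lin pt_sub')
open scoped ComplexConjugate

/-- Conformal charts, one for each boundary component. -/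
structure Chs (D : Set ℂ) (ι : Type) where
  φ : ι → ℂ → ℂ
  r : ℝ
  r0 : 0 < r
  r1 : r < 1
  op : IsOpen D
  bdd : Bornology.IsBounded D
  φd : ∀ j, DifferentiableOn ℂ (φ j) D
  inj : ∀ j, InjOn (φ j) D
  ne : ∀ j, ∀ z ∈ D, deriv (φ j) z ≠ 0
  lt : ∀ j, ∀ z ∈ D, ‖φ j z‖ < 1
  dis : ∀ i j, ∀ z ∈ D, r < ‖φ i z‖ → r < ‖φ j z‖ → i = j
  prop : ∀ ρ < (1 : ℝ), ∃ K, IsCompact K ∧ K ⊆ D ∧ ∀ z ∈ D, z ∉ K → ∃ j, ρ < ‖φ j z‖

variable {D : Set ℂ} {ι : Type}

/-- The inner normal derivative in the chart. -/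
noncomputable def Chs.X (c : Chs D ι) (j : ι) (g : ℂ → ℂ) (z : ℂ) : ℂ :=
  -(g z * (c.φ j z / deriv (c.φ j) z))

/-- The boundary condition. -/
def Chs.Bg (c : Chs D ι) (g : ℂ → ℂ) : Prop := ∀ ε > (0 : ℝ), ∃ ρ < (1 : ℝ), ∀ j, ∀ z ∈ D,
  ρ < ‖c.φ j z‖ → ‖c.X j g z‖ - (c.X j g z).re ≤ ε

/-- The density of the mass of the cut-off. -/
noncomputable def Chs.wt (c : Chs D ι) (s δ : ℝ) (j : ι) (z : ℂ) : ℝ :=
  dt s δ (‖c.φ j z‖ ^ 2) * ‖deriv (c.φ j) z‖ ^ 2

variable [Fintype ι]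

/-- The derivative of the cut-off. -/
noncomputable def Chs.V (c : Chs D ι) (s δ : ℝ) (z : ℂ) : ℂ :=
  ∑ j, dt s δ (‖c.φ j z‖ ^ 2) * (c.φ j z * conj (deriv (c.φ j) z))

theorem Chs.away (c : Chs D ι) {K : Set ℂ} (hK : IsCompact K) (hKD : K ⊆ D) :
    ∃ ρ < (1 : ℝ), ∀ j, ∀ z ∈ K, ‖c.φ j z‖ ≤ ρ := by
  have h1 : ∀ j, ∀ᶠ ρ in 𝓝[<] (1 : ℝ), ∀ z ∈ K, ‖c.φ j z‖ ≤ ρ := by
    intro j
    rcases K.eq_empty_or_nonempty with rfl | hne
    · simp
    obtain ⟨m, hm, hmax⟩ := hK.exists_isMaxOn hne ((c.φd j).continuousOn.mono hKD).norm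
    filter_upwards [Ioo_mem_nhdsLT (c.lt j m (hKD hm))] with ρ hρ z hz
    exact (hmax hz).trans hρ.1.le
  obtain ⟨ρ, h2, h3⟩ := ((eventually_all.2 h1).and self_mem_nhdsWithin).exists
  exact ⟨ρ, h3, h2⟩

theorem Chs.V_cont (c : Chs D ι) (s δ : ℝ) : ContinuousOn (c.V s δ) D := by
  refine continuousOn_finsetSum _ fun j _ => ?_
  have h1 := (c.φd j).continuousOn
  have h2 := ((c.φd j).deriv c.op).continuousOn
  exact (continuous_ofReal.comp_continuousOn ((dt_cont s δ).comp_continuousOn (h1.norm.pow 2))).mul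
    (h1.mul (continuous_conj.comp_continuousOn h2))

theorem Chs.mul_V (c : Chs D ι) (s δ : ℝ) (g : ℂ → ℂ) {z : ℂ} (hz : z ∈ D) :
    g z * c.V s δ z = -∑ j, c.wt s δ j z * c.X j g z := by
  unfold Chs.V Chs.wt Chs.X
  rw [Finset.mul_sum, ← Finset.sum_neg_distrib]
  refine Finset.sum_congr rfl fun j _ => ?_
  have := c.ne j z hz
  rw [ofReal_mul, ← normSq_eq_norm_sq (deriv (c.φ j) z), ← mul_conj]
  field_simp

theorem Chs.hd (c : Chs D ι) (s δ : ℝ) {z : ℂ} (hz : z ∈ D) :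
    HD (fun w => ∑ j, th s δ (‖c.φ j w‖ ^ 2)) (fun w => 2 * conj (c.V s δ w)) z := by
  have h := HD_sum Finset.univ fun j _ =>
    HD_th ((c.φd j).differentiableAt (c.op.mem_nhds hz)).hasDerivAt s δ
  have e : 2 * conj (c.V s δ z) =
      ∑ j, dt s δ (‖c.φ j z‖ ^ 2) * (2 * (conj (c.φ j z) * deriv (c.φ j) z)) := by
    unfold Chs.V
    rw [map_sum, Finset.mul_sum]
    refine Finset.sum_congr rfl fun j _ => ?_
    simp only [map_mul, conj_ofReal, conj_conj]; ring
  unfold HD at h ⊢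
  simp only [e]
  exact h

/-- The data of a cut-off near the boundary. -/
structure Cut (c : Chs D ι) (s δ : ℝ) (K : Set ℂ) : Prop where
  pos : 0 < δ
  cpt : IsCompact K
  sub : K ⊆ D
  one : ∀ z ∈ D, z ∉ K → ∑ j, th s δ (‖c.φ j z‖ ^ 2) = 1

theorem exists_cut (c : Chs D ι) {ρ : ℝ} (h1 : ρ < 1) {K₀ : Set ℂ} (k1 : IsCompact K₀)
    (k2 : K₀ ⊆ D) : ∃ s δ K, Cut c s δ K ∧ K₀ ⊆ K ∧ 0 ≤ s ∧ ∀ t, 0 ≤ t → t ≤ ρ → t ^ 2 < s := by
  obtain ⟨ρ₁, a1, a2⟩ := exists_between (max_lt h1 c.r1)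
  have a3 : c.r < ρ₁ := (le_max_right _ _).trans_lt a1
  have a4 : ρ < ρ₁ := (le_max_left _ _).trans_lt a1
  have a5 := c.r0
  have a6 : ρ₁ ^ 2 < 1 := by nlinarith
  obtain ⟨K, b1, b2, b3⟩ := c.prop √((1 + ρ₁ ^ 2) / 2) ((Real.sqrt_lt' one_pos).2 (by linarith))
  refine ⟨ρ₁ ^ 2, (1 - ρ₁ ^ 2) / 2, K ∪ K₀, ⟨by linarith, b1.union k1, union_subset b2 k2,
    fun z hz hzK => ?_⟩, subset_union_right, sq_nonneg _, fun t t0 t1 => by nlinarith⟩
  obtain ⟨j, hj⟩ := b3 z hz fun h => hzK (Or.inl h)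
  have d1 := (Real.sqrt_lt' ((Real.sqrt_nonneg _).trans_lt hj)).1 hj
  rw [Finset.sum_eq_single j (fun i _ hi => th_zero (by linarith) ?_) (by simp),
    th_one (by linarith) (by linarith)]
  by_contra hcon
  have d2 : ρ₁ < ‖c.φ i z‖ := lt_of_pow_lt_pow_left₀ 2 (norm_nonneg _) (not_le.1 hcon)
  have d3 : ρ₁ < ‖c.φ j z‖ := lt_of_pow_lt_pow_left₀ 2 (norm_nonneg _) (by linarith)
  exact hi (c.dis i j z hz (by linarith) (by linarith))

variable {c : Chs D ι} {s δ : ℝ} {K : Set ℂ}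

theorem Cut.hol (h : Cut c s δ K) {f : ℂ → ℂ} (hf : DifferentiableOn ℂ f D) :
    ∫ z in K, f z * c.V s δ z = 0 := by
  have h0 : ∀ z : ℂ, HD (fun _ => (1 : ℝ)) (fun _ => 0) z := fun z => by
    simpa [HD] using hasFDerivAt_const (1 : ℝ) z
  have := green c.op h.cpt h.sub hf (fun z hz => HD_lin (c.hd s δ hz) (h0 z) (1 / 2) (-1 / 2))
    ((continuousOn_const.mul (continuousOn_const.mul (continuous_conj.comp_continuousOn
      (c.V_cont s δ)))).add continuousOn_const) fun z hz hzK => by rw [h.one z hz hzK]; ring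
  rw [← this]
  refine setIntegral_congr_fun h.cpt.measurableSet fun z _ => ?_
  simp only [map_add, map_mul, conj_ofReal, conj_conj, map_zero, conj_ofNat]
  push_cast; ring

theorem Cut.pole (h : Cut c s δ K) {m : ℂ} {e : ℝ} (he : 0 < e) (hm : closedBall m (2 * e) ⊆ K)
    (hs : ∀ j, ∀ z ∈ closedBall m (2 * e), ‖c.φ j z‖ ^ 2 < s) :
    ∫ z in K \ ball m e, (z - m)⁻¹ * c.V s δ z =
      (∫ z in closedBall m (2 * e) \ ball m e, dt (e ^ 2) (e ^ 2) (‖z - m‖ ^ 2) : ℝ) := by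
  have he2 : 0 < e ^ 2 := by positivity
  have hK := h.cpt.diff (isOpen_ball (x := m) (ε := e))
  have hKU : K \ ball m e ⊆ D \ {m} := fun z hz =>
    ⟨h.sub hz.1, fun hm => hz.2 (by rw [hm]; exact mem_ball_self he)⟩
  have hf : DifferentiableOn ℂ (fun z => (z - m)⁻¹) (D \ {m}) :=
    DifferentiableOn.inv (by fun_prop) fun z hz => sub_ne_zero.2 hz.2
  have h0 : ∀ z : ℂ, HD (fun w => th (e ^ 2) (e ^ 2) (‖w - m‖ ^ 2))
      (fun w => dt (e ^ 2) (e ^ 2) (‖w - m‖ ^ 2) * (2 * (conj (w - m) * 1))) z := fun z =>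
    HD_th ((hasDerivAt_id z).sub_const m) _ _
  have h1 := green (c.op.sdiff isClosed_singleton) hK hKU hf
    (fun z hz => HD_lin (c.hd s δ hz.1) (h0 z) (1 / 2) (-1 / 2))
    ((continuousOn_const.mul (continuousOn_const.mul (continuous_conj.comp_continuousOn
      ((c.V_cont s δ).mono sdiff_subset)))).add (Continuous.continuousOn (by fun_prop)))
    fun z hz hzK => by
      by_cases hb : z ∈ ball m e
      · have hb' : z ∈ closedBall m (2 * e) := closedBall_subset_closedBall (by linarith)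
          (ball_subset_closedBall hb)
        rw [mem_ball, dist_eq_norm] at hb
        rw [Finset.sum_eq_zero fun j _ => th_zero h.pos (hs j z hb').le,
          th_zero he2 (by nlinarith [norm_nonneg (z - m)])]
        ring
      · have a1 : z ∉ K := fun a => hzK ⟨a, hb⟩
        have a2 : 2 * e < ‖z - m‖ := by
          by_contra a
          exact a1 (hm (by rw [mem_closedBall, dist_eq_norm]; exact not_lt.1 a))
        rw [h.one z hz.1 a1, th_one he2 (by nlinarith)]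
        ring
  have i1 : IntegrableOn (fun z => (z - m)⁻¹ * c.V s δ z) (K \ ball m e) :=
    ((hf.continuousOn.mono hKU).mul ((c.V_cont s δ).mono
      (sdiff_subset.trans h.sub))).integrableOn_compact hK
  have i2 : IntegrableOn (fun z => (dt (e ^ 2) (e ^ 2) (‖z - m‖ ^ 2) : ℂ)) (K \ ball m e) :=
    ContinuousOn.integrableOn_compact hK (by fun_prop)
  rw [setIntegral_congr_fun hK.measurableSet (g := fun z => (z - m)⁻¹ * c.V s δ z -
      (dt (e ^ 2) (e ^ 2) (‖z - m‖ ^ 2) : ℂ)) (fun z hz => by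
    have a : z - m ≠ 0 := sub_ne_zero.2 (hKU hz).2
    simp only [map_add, map_mul, conj_ofReal, conj_conj, map_one, conj_ofNat]
    push_cast; field_simp; ring), integral_sub i1 i2, sub_eq_zero] at h1
  rw [h1, integral_complex_ofReal]
  congr 1
  refine setIntegral_eq_of_subset_of_forall_sdiff_eq_zero hK.measurableSet
    (sdiff_subset_sdiff_left hm) fun z hz => dt_zero he2 (Or.inr ?_)
  have a2 : 2 * e < ‖z - m‖ := by
    by_contra a
    exact hz.2 ⟨by rw [mem_closedBall, dist_eq_norm]; exact not_lt.1 a, hz.1.2⟩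
  nlinarith

/-- **Uniqueness.** -/
theorem chs_zero (c : Chs D ι) {Q : ℂ → ℂ} (hQ : DifferentiableOn ℂ Q D) {P : Finset ℂ}
    (hP : ∀ p ∈ P, p ∈ D) (hres : ∀ p ∈ P, 0 ≤ (Q p / ∏ p' ∈ P.erase p, (p - p')).re)
    (hb : c.Bg fun z => Q z / ∏ p ∈ P, (z - p)) {z₀ : ℂ} (hz₀ : z₀ ∈ D) : Q z₀ = 0 := by
  classical
  obtain ⟨R, hR, hpf⟩ := pfrac c.op hQ P hP
  set g : ℂ → ℂ := fun z => Q z / ∏ p ∈ P, (z - p) with hg
  obtain ⟨e, he, hbe⟩ : ∃ e > (0 : ℝ), ∀ m ∈ insert z₀ P, closedBall m (2 * e) ⊆ D := by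
    have h1 : ∀ m ∈ insert z₀ P, ∀ᶠ e in 𝓝[>] (0 : ℝ), closedBall m (2 * e) ⊆ D := by
      intro m hm
      have hmD : m ∈ D := (Finset.mem_insert.1 hm).elim (fun h => h ▸ hz₀) (hP m)
      obtain ⟨ε, hε, hs⟩ := nhds_basis_closedBall.mem_iff.1 (c.op.mem_nhds hmD)
      filter_upwards [Ioo_mem_nhdsGT (half_pos hε)] with e he
      exact (closedBall_subset_closedBall (by linarith [he.2])).trans hs
    obtain ⟨e, h2, h3⟩ := (((Finset.eventually_all _).2 h1).and self_mem_nhdsWithin).exists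
    exact ⟨e, h3, h2⟩
  set K₀ : Set ℂ := ⋃ m ∈ insert z₀ P, closedBall m (2 * e) with hK₀
  have k1 : IsCompact K₀ := Finset.isCompact_biUnion _ fun m _ => isCompact_closedBall _ _
  have k2 : K₀ ⊆ D := iUnion₂_subset hbe
  have k3 : ∀ m ∈ insert z₀ P, closedBall m (2 * e) ⊆ K₀ := fun m hm =>
    subset_biUnion_of_mem (u := fun m => closedBall m (2 * e)) (Finset.mem_coe.2 hm)
  obtain ⟨ρ₀, hρ₀, hφ₀⟩ := c.away k1 k2
  obtain ⟨C, hC, hmass⟩ := mass_le
  obtain ⟨B, hB0, hB⟩ : ∃ B > (0 : ℝ), ∀ z ∈ D, ∀ p ∈ D, ‖z - p‖ ≤ B := by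
    obtain ⟨B, hB⟩ := Metric.isBounded_iff.1 c.bdd
    exact ⟨max B 1, lt_max_of_lt_right one_pos, fun z hz p hp => by
      rw [← dist_eq_norm]; exact (hB hz hp).trans (le_max_left _ _)⟩
  set μ : ℂ → ℝ := fun m =>
    ∫ z in closedBall m (2 * e) \ ball m e, dt (e ^ 2) (e ^ 2) (‖z - m‖ ^ 2) with hμ
  have hμ0 : ∀ m, 0 < μ m := fun m => mass_pos m he
  set A : ℝ := B ^ P.card / e * (Fintype.card ι * C + 1) with hA
  have hA0 : 0 < A := by positivity
  have key : ∀ ε > (0 : ℝ), ‖Q z₀‖ * μ z₀ ≤ A * ε := by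
    intro ε hε
    obtain ⟨ρ, hρ, hN⟩ := hb ε hε
    obtain ⟨s, δ, K, hc, hK₀K, hs0, hs⟩ := exists_cut c (max_lt hρ hρ₀) k1 k2
    set S : Set ℂ := K \ ⋃ m ∈ insert z₀ P, ball m e with hS
    have hSc : IsCompact S := hc.cpt.diff (isOpen_biUnion fun _ _ => isOpen_ball)
    have hSD : S ⊆ D := sdiff_subset.trans hc.sub
    have hfar : ∀ z ∈ S, ∀ m ∈ insert z₀ P, e ≤ ‖z - m‖ := fun z hz m hm => by
      by_contra a
      exact hz.2 (mem_biUnion (Finset.mem_coe.2 hm)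
        (by rw [mem_ball, dist_eq_norm]; exact not_le.1 a))
    have hne : ∀ z ∈ S, ∀ m ∈ insert z₀ P, z - m ≠ 0 := fun z hz m hm =>
      norm_pos_iff.1 (he.trans_le (hfar z hz m hm))
    have hs1 : ∀ j, ∀ z ∈ K₀, ‖c.φ j z‖ ^ 2 < s := fun j z hz =>
      hs _ (norm_nonneg _) ((hφ₀ j z hz).trans (le_max_right _ _))
    have hres' : ∀ (f : ℂ → ℂ) (T : Set ℂ), MeasurableSet T → S ⊆ T → T ⊆ K →
        ∫ z in T, f z * c.V s δ z = ∫ z in S, f z * c.V s δ z := by
      intro f T t1 t2 t3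
      refine setIntegral_eq_of_subset_of_forall_sdiff_eq_zero t1 t2 fun z hz => ?_
      have a1 : z ∈ K₀ := by
        by_contra a
        refine hz.2 ⟨t3 hz.1, fun b => a ?_⟩
        obtain ⟨m, hm, b⟩ := mem_iUnion₂.1 b
        exact k3 m hm (closedBall_subset_closedBall (by linarith) (ball_subset_closedBall b))
      unfold Chs.V
      rw [Finset.sum_eq_zero fun j _ => by
        rw [dt_zero hc.pos (Or.inl (hs1 j z a1)), ofReal_zero, zero_mul], mul_zero]
    have L0 : ∀ f, DifferentiableOn ℂ f D → ∫ z in S, f z * c.V s δ z = 0 := fun f hf =>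
      (hres' f K hc.cpt.measurableSet sdiff_subset subset_rfl).symm.trans (hc.hol hf)
    have L1 : ∀ m ∈ insert z₀ P, ∫ z in S, (z - m)⁻¹ * c.V s δ z = μ m := fun m hm =>
      (hres' _ _ (hc.cpt.diff isOpen_ball).measurableSet
        (sdiff_subset_sdiff_right (subset_biUnion_of_mem (u := fun m => ball m e)
          (Finset.mem_coe.2 hm))) sdiff_subset).symm.trans
        (hc.pole he ((k3 m hm).trans hK₀K) fun j z hz => hs1 j z (k3 m hm hz))
    have iV : ∀ f : ℂ → ℂ, ContinuousOn f S → IntegrableOn (fun z => f z * c.V s δ z) S :=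
      fun f hf => (hf.mul ((c.V_cont s δ).mono hSD)).integrableOn_compact hSc
    have cI : ∀ m ∈ insert z₀ P, ContinuousOn (fun z => (z - m)⁻¹) S := fun m hm =>
      ContinuousOn.inv₀ (by fun_prop) fun z hz => hne z hz m hm
    have hp0 : ∀ z ∈ S, ∏ p ∈ P, (z - p) ≠ 0 := fun z hz =>
      Finset.prod_ne_zero_iff.2 fun p hp => hne z hz p (Finset.mem_insert_of_mem hp)
    have cg : ContinuousOn g S := (hQ.continuousOn.mono hSD).div (by fun_prop) hp0
    have i1 : ∫ z in S, g z * c.V s δ z =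
        ∑ p ∈ P, (Q p / ∏ p' ∈ P.erase p, (p - p')) * μ p := by
      have c1 : ∀ p ∈ P, IntegrableOn (fun z => (Q p / ∏ p' ∈ P.erase p, (p - p')) *
          ((z - p)⁻¹ * c.V s δ z)) S := fun p hp =>
        (iV _ (cI p (Finset.mem_insert_of_mem hp))).const_mul _
      rw [setIntegral_congr_fun hSc.measurableSet (g := fun z =>
          ∑ p ∈ P, (Q p / ∏ p' ∈ P.erase p, (p - p')) * ((z - p)⁻¹ * c.V s δ z) +
            R z * c.V s δ z) (fun z hz => by
          simp only [hg]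
          rw [hpf z (hSD hz) fun a => hne z hz z (Finset.mem_insert_of_mem a) (sub_self z), add_mul,
            Finset.sum_mul]
          simp only [mul_assoc]),
        integral_add (integrable_finsetSum _ c1) (iV _ (hR.continuousOn.mono hSD)), L0 R hR,
        add_zero, integral_finsetSum _ c1]
      exact Finset.sum_congr rfl fun p hp => by
        rw [integral_const_mul, L1 p (Finset.mem_insert_of_mem hp)]
    have i2 : 0 ≤ ∫ z in S, (g z * c.V s δ z).re := by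
      have e2 := reCLM.integral_comp_comm (iV g cg)
      simp only [reCLM_apply] at e2
      rw [e2, i1, re_sum]
      exact Finset.sum_nonneg fun p hp => by
        rw [re_mul_ofReal]; exact mul_nonneg (hres p hp) (hμ0 p).le
    have iw : ∀ j, IntegrableOn (c.wt s δ j) S := fun j =>
      ((((dt_cont s δ).comp_continuousOn ((c.φd j).continuousOn.norm.pow 2)).mul
        (((c.φd j).deriv c.op).continuousOn.norm.pow 2)).mono hSD).integrableOn_compact hSc
    have i3 : ∫ z in S, ‖g z * c.V s δ z‖ ≤ ε * (Fintype.card ι * C) := by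
      have e1 : ∫ z in S, (‖g z * c.V s δ z‖ + (g z * c.V s δ z).re) ≤
          ∫ z in S, ε * ∑ j, c.wt s δ j z := by
        refine setIntegral_mono_on ((iV g cg).norm.add (iV g cg).re)
          ((integrable_finsetSum _ fun j _ => iw j).const_mul ε) hSc.measurableSet fun z hz => ?_
        rw [c.mul_V s δ g (hSD hz), norm_neg, neg_re, re_sum, Finset.mul_sum]
        refine (add_le_add_left (norm_sum_le _ _) _).trans ?_
        rw [← sub_eq_add_neg, ← Finset.sum_sub_distrib]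
        refine Finset.sum_le_sum fun j _ => ?_
        have w0 : 0 ≤ c.wt s δ j z := mul_nonneg (dt_nn hc.pos _) (sq_nonneg _)
        rw [norm_mul, norm_real, Real.norm_of_nonneg w0, re_ofReal_mul, ← mul_sub, mul_comm ε]
        by_cases a : ρ < ‖c.φ j z‖
        · exact mul_le_mul_of_nonneg_left (hN j z (hSD hz) a) w0
        · unfold Chs.wt
          rw [dt_zero hc.pos (Or.inl (hs _ (norm_nonneg _) ((not_lt.1 a).trans (le_max_left _ _))))]
          simp
      have ir : IntegrableOn (fun z => (g z * c.V s δ z).re) S := (iV g cg).re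
      rw [integral_add (iV g cg).norm ir, integral_const_mul,
        integral_finsetSum _ fun j _ => iw j] at e1
      have e2 : ∑ j, ∫ z in S, c.wt s δ j z ≤ Fintype.card ι * C := by
        rw [← nsmul_eq_mul]
        exact Finset.sum_le_card_nsmul _ _ _ fun j _ =>
          hmass _ D S s δ c.op hSc hSD (c.φd j) (c.inj j) hs0 hc.pos
      linarith [mul_le_mul_of_nonneg_left e2 hε.le]
    have hz1 := Finset.mem_insert_self z₀ P
    have hds : DifferentiableOn ℂ (dslope Q z₀) D :=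
      (differentiableOn_dslope (c.op.mem_nhds hz₀)).2 hQ
    have i4 : ∫ z in S, (Q z * (z - z₀)⁻¹) * c.V s δ z = Q z₀ * μ z₀ := by
      rw [setIntegral_congr_fun hSc.measurableSet (g := fun z =>
          Q z₀ * ((z - z₀)⁻¹ * c.V s δ z) + dslope Q z₀ z * c.V s δ z) (fun z hz => by
          have a := sub_smul_dslope Q z₀ z
          have b := hne z hz z₀ hz1
          rw [smul_eq_mul] at a
          simp only
          rw [show Q z = Q z₀ + (z - z₀) * dslope Q z₀ z by linear_combination -a]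
          field_simp),
        integral_add ((iV _ (cI z₀ hz1)).const_mul _) (iV _ (hds.continuousOn.mono hSD)),
        L0 _ hds, add_zero, integral_const_mul, L1 z₀ hz1]
    have i5 : ‖∫ z in S, (Q z * (z - z₀)⁻¹) * c.V s δ z‖ ≤
        ∫ z in S, B ^ P.card / e * ‖g z * c.V s δ z‖ := by
      refine norm_integral_le_of_norm_le ((iV g cg).norm.const_mul _)
        ((ae_restrict_iff' hSc.measurableSet).2 (Eventually.of_forall fun z hz => ?_))
      have d1 : Q z * (z - z₀)⁻¹ * c.V s δ z =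
          ((∏ p ∈ P, (z - p)) / (z - z₀)) * (g z * c.V s δ z) := by
        have := hp0 z hz
        simp only [hg]; field_simp
      have d2 : ‖∏ p ∈ P, (z - p)‖ ≤ B ^ P.card := by
        rw [norm_prod, ← Finset.prod_const]
        exact Finset.prod_le_prod (fun p _ => norm_nonneg _) fun p hp => hB z (hSD hz) p (hP p hp)
      rw [d1, norm_mul, norm_div]
      exact mul_le_mul_of_nonneg_right (div_le_div₀ (by positivity) d2 he (hfar z hz z₀ hz1))
        (norm_nonneg _)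
    rw [i4, integral_const_mul, norm_mul, norm_real, Real.norm_of_nonneg (hμ0 z₀).le] at i5
    refine i5.trans ?_
    rw [hA, mul_assoc]
    exact mul_le_mul_of_nonneg_left (by nlinarith) (by positivity)
  refine norm_le_zero_iff.1 (le_of_forall_pos_le_add fun ε hε => ?_)
  have := key (ε * μ z₀ / A) (by have := hμ0 z₀; positivity)
  rw [mul_div_cancel₀ _ hA0.ne'] at this
  rw [zero_add]
  exact le_of_mul_le_mul_right this (hμ0 z₀)

/-- The boundary condition for the squares of spinors. -/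
def Chs.Bd (c : Chs D ι) (F : ℂ → ℂ) : Prop := c.Bg fun z => cH * F z

theorem Chs.Bg.congr {g g' : ℂ → ℂ} (h : c.Bg g) {T : Set ℂ} (hT : IsCompact T) (hTD : T ⊆ D)
    (he : ∀ z ∈ D, z ∉ T → g' z = g z) : c.Bg g' := by
  intro ε hε
  obtain ⟨ρ, h1, h2⟩ := h ε hε
  obtain ⟨ρ', h3, h4⟩ := c.away hT hTD
  refine ⟨max ρ ρ', max_lt h1 h3, fun j z hz a => ?_⟩
  have := h2 j z hz ((le_max_left _ _).trans_lt a)
  unfold Chs.X at this ⊢
  rwa [he z hz fun b => absurd (h4 j z b) (not_le.2 ((le_max_right _ _).trans_lt a))]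

theorem Chs.smul (c : Chs D ι) (F F' : ℂ → ℂ) (t : ℝ) (T : Set ℂ) (ht : 0 ≤ t) (hT : T.Finite)
    (hTD : T ⊆ D) (he : ∀ z ∈ D, z ∉ T → F' z = t * F z) (h : c.Bd F) : c.Bd F' := by
  refine Chs.Bg.congr (g := fun z => t * (cH * F z)) (fun ε hε => ?_) hT.isCompact hTD
    fun z hz a => by rw [he z hz a]; ring
  obtain ⟨ρ, h1, h2⟩ := h (ε / (t + 1)) (by positivity)
  refine ⟨ρ, h1, fun j z hz a => ?_⟩
  have e : c.X j (fun z => t * (cH * F z)) z = t * c.X j (fun z => cH * F z) z := by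
    unfold Chs.X; ring
  have b := h2 j z hz a
  rw [le_div_iff₀ (by positivity)] at b
  rw [e, norm_mul, norm_real, Real.norm_of_nonneg ht, re_ofReal_mul]
  nlinarith [re_le_norm (c.X j (fun z => cH * F z) z)]

omit [Fintype ι] in
theorem Chs.zero (c : Chs D ι) : c.Bd fun _ => 0 := fun ε hε =>
  ⟨0, one_pos, fun j z _ _ => by simpa [Chs.X] using hε.le⟩

theorem Chs.uni (c : Chs D ι) : P144Q.Uni D c.Bd := by
  classical
  intro κ κ' _ _ ζ ω q q1 q2 T hζ hω hinj hT hTD hTM hq he hc1 hc2 b1 b2 r1 r2 hs z hz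
  have hb : c.Bg fun z => cH * ((q1 z - q2 z) ^ 2 / PP ζ ω z) := by
    intro ε hε
    obtain ⟨ρ1, a1, a2⟩ := b1 (ε / 4) (by positivity)
    obtain ⟨ρ2, a3, a4⟩ := b2 (ε / 4) (by positivity)
    refine ⟨max ρ1 ρ2, max_lt a1 a3, fun j y hy a => ?_⟩
    have d1 := a2 j y hy ((le_max_left _ _).trans_lt a)
    have d2 := a4 j y hy ((le_max_right _ _).trans_lt a)
    have e : ∀ f : ℂ → ℂ, c.X j (fun z => cH * (f z ^ 2 / PP ζ ω z)) y =
        -(cH * (c.φ j y / deriv (c.φ j) y) / PP ζ ω y) * f y ^ 2 := fun f => by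
      unfold Chs.X; ring
    unfold F2 at d1 d2
    rw [e] at d1 d2
    rw [e fun z => q1 z - q2 z]
    linarith [pt_sub' (-(cH * (c.φ j y / deriv (c.φ j) y) / PP ζ ω y)) (q1 y) (q2 y)]
  have h0 := chs_zero c (Q := fun z => cH * q z ^ 2) ((hq.pow 2).const_mul _) (P := MF ζ ω)
    (fun m hm => ?_) (fun m hm => ?_) (hb.congr hT.isCompact hTD fun y hy a => by
      rw [he y hy a, PP_eq hinj, mul_div_assoc]) hz
  · have hcH : cH ≠ 0 := fun h => by
      have := congrArg re h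
      simp [cH] at this
    exact pow_eq_zero_iff two_ne_zero |>.1 ((mul_eq_zero.1 h0).resolve_left hcH)
  · rcases mem_MF.1 hm with ⟨p, rfl⟩ | ⟨p, rfl⟩
    exacts [hζ p, hω p]
  · rcases mem_MF.1 hm with ⟨p, rfl⟩ | ⟨p, rfl⟩
    · obtain ⟨c1, hc1', e1⟩ := rs_real hinj hm (hc1 p) (r1 p)
      obtain ⟨c2, hc2', e2⟩ := rs_real hinj hm (hc2 p) (r2 p)
      obtain ⟨t, ht, e3⟩ := rs_sub hc1' hc2' e1 e2 (he _ (hζ p) fun h => hTM _ h (Or.inl ⟨p, rfl⟩))
      unfold rs at e3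
      rw [mul_div_assoc, e3, ofReal_re]
      exact ht
    · simp [hs p]

end Vale.Agent.P144M
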